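import Vale.Agent.P126.Neg.Core
import Vale.Agent.P126.Neg.Cyl

/-! Compatibility of two points on a set of classes, and the tuples of one point that can force
another one. -/

namespace Vale.Agent.P126.Neg.Force

open scoped Classical
open Finset

variable {Q P b n : ℕ} {V : Type}

/-- Where two points expect the same values. -/
noncomputable def agreeSet (x y : Pt Q P V) : Finset (Omega Q P) :=
  univ.filter fun w => x.phi w = y.phi w

/-- Thresholds of density tending to `1`. -/
noncomputable def thr (δ' : ℝ) (t : ℕ) : ℝ := 1 - δ' / 2 ^ t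

/-- The minimal sets on which two points nearly agree. -/
noncomputable def compatMin (δ' : ℝ) (M : ℕ) (x y : Pt Q P V) : Finset (Finset (Fin Q)) :=
  minDense (agreeSet x y) {x.cls, y.cls} (thr δ') M

/-- Two points are compatible on `U`. -/
def Compat (δ' : ℝ) (M : ℕ) (x y : Pt Q P V) (U : Finset (Fin Q)) : Prop :=
  ∃ F ∈ compatMin δ' M x y, F ⊆ U

/-- The pairs of tuples of `x` and `y` through which `x` can force `y`. -/
def Link (δ' : ℝ) (M : ℕ) (x y : Pt Q P V) (I : Finset (Fin n)) (a c : Fin n → Fin Q) : Prop :=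
  (∀ p ∈ I, c p = a p) ∧ Free y.L (img a ∪ img c) ∧ Compat δ' M x y (img a ∪ img c)

/-- `x` may be the root of a tuple of `y`. -/
def Orient (T : Fin Q → Fin Q → Prop) (x y : Pt Q P V) : Prop :=
  x.cls = y.cls ∨ T x.cls y.cls

/-- With common positions `I`, the tuple `a` of `x` can force `y`. -/
def GamI (T : Fin Q → Fin Q → Prop) (δ' : ℝ) (M : ℕ) (θ ρ1 : ℝ) (x y : Pt Q P V)
    (I : Finset (Fin n)) (a : Fin n → Fin Q) : Prop :=
  Orient T x y ∧ ∃ ν : (Fin n → Fin Q) → ℝ, Spread θ ν ∧
    ρ1 ≤ θ ^ I.card * ∑ c ∈ univ.filter (fun c => Link δ' M x y I a c), ν c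

/-- The tuple `a` of `x` can force `y`. -/
def Gam (T : Fin Q → Fin Q → Prop) (δ' : ℝ) (M : ℕ) (θ ρ1 : ℝ) (x y : Pt Q P V)
    (a : Fin n → Fin Q) : Prop :=
  ∃ I : Finset (Fin n), GamI T δ' M θ ρ1 x y I a

theorem img_comp (π : Fin Q → Fin Q) (a : Fin n → Fin Q) : img (π ∘ a) = (img a).image π := by
  simp [img, image_image]

theorem card_img_le (a : Fin n → Fin Q) : (img a).card ≤ n :=
  card_image_le.trans (by simp)

theorem card_union_img_le (a c : Fin n → Fin Q) : (img a ∪ img c).card ≤ 2 * n :=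
  (card_union_le _ _).trans (by have := card_img_le a; have := card_img_le c; omega)

theorem agreeSet_comm (x y : Pt Q P V) : agreeSet x y = agreeSet y x := by
  ext w; simp [agreeSet, eq_comm]

theorem compat_comm {δ' : ℝ} {M : ℕ} {x y : Pt Q P V} {U : Finset (Fin Q)} :
    Compat δ' M x y U ↔ Compat δ' M y x U := by
  simp [Compat, compatMin, agreeSet_comm x y, Finset.pair_comm x.cls y.cls]

/-- The points where two points differ, inside a cylinder. -/
noncomputable def diff (x y : Pt Q P V) (A : Finset (Fin Q)) : Finset (Omega Q P) :=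
  (cyl A).filter fun w => x.phi w ≠ y.phi w

theorem card_inter_agree (x y : Pt Q P V) (A : Finset (Fin Q)) :
    ((cyl A ∩ agreeSet x y).card : ℝ) = (cyl (P := P) A).card - (diff x y A).card := by
  have h := card_filter_add_card_filter_not (s := cyl (P := P) A) (fun w => x.phi w = y.phi w)
  have h1 : cyl A ∩ agreeSet x y = (cyl A).filter fun w => x.phi w = y.phi w := by
    ext w; simp [agreeSet]
  rw [h1, eq_sub_iff_add_eq, ← Nat.cast_add, diff]
  exact_mod_cast h

theorem compat_of_diff {δ' : ℝ} (hδ : 0 ≤ δ') {M : ℕ} {x y : Pt Q P V} {U : Finset (Fin Q)}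
    (hU : U.card ≤ M)
    (h : ((diff x y ({x.cls, y.cls} ∪ U)).card : ℝ) ≤
      δ' / 2 ^ M * (cyl (P := P) ({x.cls, y.cls} ∪ U)).card) :
    Compat δ' M x y U := by
  set B : Finset (Fin Q) := {x.cls, y.cls} with hB
  set S := (U \ B).powerset.filter fun G => DenseAt (agreeSet x y) B (thr δ') G with hS
  have hUB : B ∪ (U \ B) = B ∪ U := union_sdiff_self_eq_union
  have hc : (U \ B).card ≤ M := (card_le_card sdiff_subset).trans hU
  have hne : S.Nonempty := by
    refine ⟨U \ B, mem_filter.2 ⟨mem_powerset_self _, ?_⟩⟩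
    rw [DenseAt, hUB, card_inter_agree, thr]
    have h2 : δ' / 2 ^ M ≤ δ' / 2 ^ (U \ B).card :=
      div_le_div_of_nonneg_left hδ (by positivity) (pow_le_pow_right₀ one_le_two hc)
    have h3 := mul_le_mul_of_nonneg_right h2
      (Nat.cast_nonneg (α := ℝ) (cyl (P := P) (B ∪ U)).card)
    linarith
  obtain ⟨F, hF, hmin⟩ := S.exists_min_image Finset.card hne
  simp only [hS, mem_filter, mem_powerset] at hF
  refine ⟨F, mem_filter.2 ⟨mem_univ _, (card_le_card hF.1).trans hc,
    disjoint_of_subset_left hF.1 sdiff_disjoint, hF.2, fun G hG hd => ?_⟩,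
    hF.1.trans sdiff_subset⟩
  have h1 := hmin G (mem_filter.2 ⟨mem_powerset.2 (hG.subset.trans hF.1), hd⟩)
  have h2 := card_lt_card hG
  omega

theorem diff_le_of_compat (hP : 0 < P) {δ' : ℝ} (hδ : 0 ≤ δ') {M : ℕ} {x y : Pt Q P V}
    {U : Finset (Fin Q)} (hU : U.card ≤ M) (h : Compat δ' M x y U) :
    ((diff x y ({x.cls, y.cls} ∪ U)).card : ℝ) ≤
      δ' * P ^ M * (cyl (P := P) ({x.cls, y.cls} ∪ U)).card := by
  obtain ⟨F, hF, hFU⟩ := h
  simp only [compatMin, minDense, mem_filter, mem_univ, true_and] at hF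
  obtain ⟨-, -, hd, -⟩ := hF
  set B : Finset (Fin Q) := {x.cls, y.cls}
  have h1 : ((diff x y (B ∪ U)).card : ℝ) ≤ (diff x y (B ∪ F)).card :=
    Nat.cast_le.2 (card_le_card (filter_subset_filter _ (cyl_anti (union_subset_union_right hFU))))
  have hd2 : thr δ' F.card * ((cyl (P := P) (B ∪ F)).card : ℝ) ≤
      ((cyl (B ∪ F) ∩ agreeSet x y).card : ℝ) := hd
  rw [card_inter_agree, thr] at hd2
  have h2 : δ' / 2 ^ F.card ≤ δ' := div_le_self hδ (one_le_pow₀ one_le_two)
  have h3 : ((cyl (P := P) (B ∪ F)).card : ℝ) ≤ (cyl (P := P) (B ∪ U)).card * (P : ℝ) ^ M := by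
    exact_mod_cast cyl_card_le_mul hP (A := B ∪ F) (B := B ∪ U) (t := M) (by
      have h4 : (B ∪ U).card ≤ B.card + U.card := card_union_le _ _
      have h5 : B.card ≤ (B ∪ F).card := card_le_card subset_union_left
      omega)
  have h4 := mul_le_mul_of_nonneg_right h2
    (Nat.cast_nonneg (α := ℝ) (cyl (P := P) (B ∪ F)).card)
  have h5 := mul_le_mul_of_nonneg_left h3 hδ
  nlinarith

end Vale.Agent.P126.Neg.Force
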