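import Vale.Agent.P126.Neg.Force.Basic

/-! Tuples matter only up to permutations fixing a small pool of classes. -/

namespace Vale.Agent.P126.Neg.Force

open scoped Classical
open Finset

variable {Q P b n : ℕ} {V : Type}

/-- The classes on which lists and compatibilities of a sample depend. -/
noncomputable def pool (δ' : ℝ) (M : ℕ) (x : Fin b → Pt Q P V) : Finset (Fin Q) :=
  (univ.biUnion fun k => (x k).L.biUnion id) ∪
    univ.biUnion fun j => univ.biUnion fun k => (compatMin δ' M (x j) (x k)).biUnion id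

theorem subset_image_perm {π : Equiv.Perm (Fin Q)} {F U : Finset (Fin Q)}
    (h : ∀ i ∈ F, π i = i) : F ⊆ U.image π ↔ F ⊆ U := by
  refine ⟨fun hs i hi => ?_, fun hs i hi => mem_image.2 ⟨i, hs hi, h i hi⟩⟩
  obtain ⟨u, hu, hui⟩ := mem_image.1 (hs hi)
  have : u = i := π.injective (hui.trans (h i hi).symm)
  rwa [← this]

theorem spread_comp {θ : ℝ} {ν : (Fin n → Fin Q) → ℝ} (π : Equiv.Perm (Fin Q))
    (h : Spread θ ν) : Spread θ (fun c => ν (π.symm ∘ c)) := by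
  refine ⟨fun c => h.1 _, fun I v => le_trans (le_of_eq ?_) (h.2 I (π.symm ∘ v))⟩
  refine sum_equiv ((Equiv.refl (Fin n)).arrowCongr π.symm) (fun c => ?_) fun c _ => rfl
  simp

theorem link_comp {δ' : ℝ} {M : ℕ} {x : Fin b → Pt Q P V} {π : Equiv.Perm (Fin Q)}
    (hπ : ∀ i ∈ pool δ' M x, π i = i) (j k : Fin b) (I : Finset (Fin n))
    (a c : Fin n → Fin Q) :
    Link δ' M (x j) (x k) I (π ∘ a) (π ∘ c) ↔ Link δ' M (x j) (x k) I a c := by
  have hU : img (π ∘ a) ∪ img (π ∘ c) = (img a ∪ img c).image π := by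
    rw [image_union, img_comp, img_comp]
  simp only [Link, hU, Function.comp_apply, π.injective.eq_iff, Free, Compat]
  refine and_congr_right fun _ => and_congr (forall₂_congr fun F hF => not_congr ?_)
    (exists_congr fun F => and_congr_right fun hF => ?_)
  · exact subset_image_perm fun i hi => hπ i (mem_union_left _ (mem_biUnion.2
      ⟨k, mem_univ _, mem_biUnion.2 ⟨F, hF, hi⟩⟩))
  · exact subset_image_perm fun i hi => hπ i (mem_union_right _ (mem_biUnion.2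
      ⟨j, mem_univ _, mem_biUnion.2 ⟨k, mem_univ _, mem_biUnion.2 ⟨F, hF, hi⟩⟩⟩))

theorem gam_comp {T : Fin Q → Fin Q → Prop} {δ' θ ρ1 : ℝ} {M : ℕ} {x : Fin b → Pt Q P V}
    {π : Equiv.Perm (Fin Q)} (hπ : ∀ i ∈ pool δ' M x, π i = i) (j k : Fin b)
    (a : Fin n → Fin Q) :
    Gam T δ' M θ ρ1 (x j) (x k) (π ∘ a) ↔ Gam T δ' M θ ρ1 (x j) (x k) a := by
  suffices H : ∀ (σ : Equiv.Perm (Fin Q)), (∀ i ∈ pool δ' M x, σ i = i) → ∀ a : Fin n → Fin Q,
      Gam T δ' M θ ρ1 (x j) (x k) a → Gam T δ' M θ ρ1 (x j) (x k) (σ ∘ a) by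
    refine ⟨fun h => ?_, H π hπ a⟩
    have := H π.symm (fun i hi => by
      conv_lhs => rw [← hπ i hi]
      exact π.symm_apply_apply i) _ h
    rwa [← Function.comp_assoc, Equiv.symm_comp_self, Function.id_comp] at this
  rintro σ hσ a ⟨I, ho, ν, hν, hle⟩
  refine ⟨I, ho, fun c => ν (σ.symm ∘ c), spread_comp σ hν, hle.trans (le_of_eq ?_)⟩
  congr 1
  refine sum_equiv ((Equiv.refl (Fin n)).arrowCongr σ) (fun c => ?_) fun c _ => ?_
  · have he : (Equiv.refl (Fin n)).arrowCongr σ c = σ ∘ c := by ext p; simp [Equiv.arrowCongr]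
    simpa [he] using (link_comp hσ j k I a c).symm
  · exact congrArg ν (funext fun p => by simp [Equiv.arrowCongr])

theorem exists_perm (Pl : Finset (Fin Q)) (Ex : Finset (Fin Q)) (hd : Disjoint Ex Pl)
    (hn : n ≤ Ex.card) (a : Fin n → Fin Q) :
    ∃ π : Equiv.Perm (Fin Q), (∀ i ∈ Pl, π i = i) ∧ ∀ p, π (a p) ∈ Pl ∪ Ex := by
  obtain ⟨E', hE', hcard⟩ := exists_subset_card_eq (s := Ex) (n := (img a \ Pl).card)
    (((card_le_card sdiff_subset).trans (card_img_le a)).trans hn)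
  set h := equivOfCardEq hcard.symm
  set g : Fin Q → Fin Q := fun i => if hi : i ∈ img a \ Pl then (h ⟨i, hi⟩ : Fin Q) else i
  have hgP : ∀ i ∈ Pl, g i = i := fun i hi => dif_neg (by simp [hi])
  have hgW : ∀ i, ∀ hi : i ∈ img a \ Pl, g i = h ⟨i, hi⟩ := fun i hi => dif_pos hi
  have hinj : Set.InjOn g ↑(Pl ∪ (img a \ Pl)) := by
    intro i hi i' hi' he
    simp only [coe_union, Set.mem_union, mem_coe] at hi hi'
    rcases hi with hi | hi <;> rcases hi' with hi' | hi'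
    · rwa [hgP i hi, hgP i' hi'] at he
    · rw [hgP i hi, hgW i' hi'] at he
      exact absurd hi (Finset.disjoint_left.1 hd (hE' (he ▸ (h ⟨i', hi'⟩).2)))
    · rw [hgP i' hi', hgW i hi] at he
      exact absurd hi' (Finset.disjoint_left.1 hd (hE' (he ▸ (h ⟨i, hi⟩).2)))
    · rw [hgW i hi, hgW i' hi', Subtype.coe_inj, h.apply_eq_iff_eq, Subtype.mk.injEq] at he
      exact he
  set e : {i // i ∈ Pl ∪ (img a \ Pl)} ≃ {i // i ∈ (Pl ∪ (img a \ Pl)).image g} :=
    Equiv.ofBijective (fun i => ⟨g i, mem_image_of_mem g i.2⟩) ⟨fun i i' he => Subtype.ext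
      (hinj i.2 i'.2 (congrArg Subtype.val he)), fun ⟨i, hi⟩ => by
        obtain ⟨u, hu, rfl⟩ := mem_image.1 hi
        exact ⟨⟨u, hu⟩, rfl⟩⟩
  refine ⟨e.extendSubtype, fun i hi => ?_, fun p => ?_⟩
  · rw [Equiv.extendSubtype_apply_of_mem e i (mem_union_left _ hi)]
    exact hgP i hi
  · have hp : a p ∈ Pl ∪ (img a \ Pl) := by
      rw [union_sdiff_self_eq_union]
      exact mem_union_right _ (mem_image_of_mem a (mem_univ p))
    rw [Equiv.extendSubtype_apply_of_mem e _ hp]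
    rcases mem_union.1 hp with h1 | h1
    · exact mem_union_left _ (by show g (a p) ∈ Pl; rw [hgP _ h1]; exact h1)
    · exact mem_union_right _ (by show g (a p) ∈ Ex; rw [hgW _ h1]; exact hE' (h ⟨_, h1⟩).2)

/-- The tuples with values in `S`. -/
noncomputable def tuplesIn (n : ℕ) (S : Finset (Fin Q)) : Finset (Fin n → Fin Q) :=
  Fintype.piFinset fun _ => S

theorem exists_key (T : Fin Q → Fin Q → Prop) (δ' θ ρ1 : ℝ) (M : ℕ) (x : Fin b → Pt Q P V)
    (Ex : Finset (Fin Q)) (hd : Disjoint Ex (pool δ' M x)) (hn : n ≤ Ex.card) :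
    ∃ κ : (Fin n → Fin Q) → (Fin n → Fin Q), ∀ a, κ a ∈ tuplesIn n (pool δ' M x ∪ Ex) ∧
      ∀ j k, Gam T δ' M θ ρ1 (x j) (x k) (κ a) ↔ Gam T δ' M θ ρ1 (x j) (x k) a := by
  choose π hπ1 hπ2 using fun a : Fin n → Fin Q => exists_perm (pool δ' M x) Ex hd hn a
  exact ⟨fun a => π a ∘ a, fun a => ⟨Fintype.mem_piFinset.2 fun p => hπ2 a p,
    fun j k => gam_comp (hπ1 a) j k a⟩⟩

end Vale.Agent.P126.Neg.Force
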