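import Vale.Agent.P126.Neg.Force.Dom
import Vale.Agent.P126.Neg.Force.Keys

/-! One block of the sample: few sets separate two consecutive levels. -/

namespace Vale.Agent.P126.Neg.Force

open scoped Classical
open Finset

variable {Q P b n : ℕ} {V : Type}

/-- The set located by samples. -/
noncomputable def sampleSet (T : Fin Q → Fin Q → Prop) (δ' : ℝ) (M : ℕ) (θ ρ1 ρ : ℝ)
    (x : Fin b → Pt Q P V) {r : ℕ} (s : Fin r → Fin b × (Fin n → Fin Q)) : Finset (Fin b) :=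
  univ.filter fun k => ρ / 2 * r ≤
    ((univ.filter fun t => Gam T δ' M θ ρ1 (x (s t).1) (x k) (s t).2).card : ℝ)

/-- The sets that may be located for tuples of one length. -/
noncomputable def famN (T : Fin Q → Fin Q → Prop) (δ' : ℝ) (M : ℕ) (θ ρ1 ρ : ℝ)
    (x : Fin b → Pt Q P V) (r n : ℕ) (Ex : Finset (Fin Q)) : Finset (Finset (Fin b)) :=
  insert ∅ ((Fintype.piFinset fun _ : Fin r =>
    (univ : Finset (Fin b)) ×ˢ tuplesIn n (pool δ' M x ∪ Ex)).image (sampleSet T δ' M θ ρ1 ρ x))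

/-- The sets that may be located in a block. -/
noncomputable def famB (T : Fin Q → Fin Q → Prop) (δ' : ℝ) (M : ℕ) (θ ρ1 ρ : ℝ)
    (x : Fin b → Pt Q P V) (r : ℕ) (Ex : Finset (Fin Q)) : Finset (Finset (Fin b)) :=
  (Fintype.piFinset fun n : Fin (M + 1) => famN T δ' M θ ρ1 ρ x r n Ex).image
    fun g => univ.biUnion g

theorem famB_card (T : Fin Q → Fin Q → Prop) (δ' : ℝ) (M : ℕ) (θ ρ1 ρ : ℝ)
    (x : Fin b → Pt Q P V) (r : ℕ) (Ex : Finset (Fin Q)) :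
    (famB T δ' M θ ρ1 ρ x r Ex).card ≤
      ((b * ((pool δ' M x ∪ Ex).card + 1) ^ M) ^ r + 1) ^ (M + 1) := by
  refine card_image_le.trans ?_
  rw [Fintype.card_piFinset]
  refine le_trans (prod_le_prod' (g := fun _ : Fin (M + 1) =>
    (b * ((pool δ' M x ∪ Ex).card + 1) ^ M) ^ r + 1) fun n _ => ?_) (by simp)
  refine (card_insert_le _ _).trans (Nat.add_le_add_right (card_image_le.trans ?_) 1)
  rw [Fintype.card_piFinset, prod_const, card_univ, Fintype.card_fin, card_product, card_univ,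
    Fintype.card_fin, tuplesIn, Fintype.card_piFinset, prod_const, card_univ, Fintype.card_fin]
  refine Nat.pow_le_pow_left (Nat.mul_le_mul_left _ ?_) _
  exact (Nat.pow_le_pow_left (Nat.le_succ _) _).trans
    (Nat.pow_le_pow_right (Nat.succ_pos _) (Nat.le_of_lt_succ n.isLt))

/-- The numerical conditions of a block. -/
structure Cond (C E M : ℕ) (S ω ρp ρ1 ρ3 ρ4 ρ5 η : ℝ) (r : ℕ) : Prop where
  pairs : ρp ≤ 1 / ((C : ℝ) * S * ω) ^ E
  r1_pos : 0 < ρ1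
  r1 : ρ1 ≤ ρp / 2
  r3_pos : 0 < ρ3
  r3 : ρ3 ≤ ρp * η / 4
  r4_pos : 0 < ρ4
  r4 : ρ4 ≤ ρ3 / 8
  r5_pos : 0 < ρ5
  r5 : ρ5 * 2 ^ M ≤ ρ1 * ρ4
  r5_one : ρ5 ≤ 1
  eta : 0 < η
  r_pos : 0 < r
  samp : 32 / ((r : ℝ) * ρ3 ^ 2) ≤ η

/-- A point of low level is forced by few. -/
theorem forced_few {T : Fin Q → Fin Q → Prop} (hT : ∀ i j, T i j → ¬ T j i) (hP : 2 ≤ P)
    {M R l : ℕ} (hM : M = 2 ^ R) (hl : l + 1 ≤ R) (hn : n ≤ depth R (l + 1)) {θ δ : ℕ → ℝ}
    {f : Omega Q P → V} {x : Fin b → Pt Q P V} {H : Finset (Fin b)}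
    {μ : Fin b → (Fin n → Fin Q) → ℝ} {ρ1 ρ4 ρ5 : ℝ} (h1 : 0 ≤ ρ1) (h5 : 0 < ρ5)
    (h5le : ρ5 * 2 ^ M ≤ ρ1 * ρ4) (h51 : ρ5 ≤ 1) (hθh : 0 < θ (l + 1)) (hθl : 0 < θ l)
    (hle : θ l ≤ ρ5 * θ (l + 1)) (hδ : 0 ≤ δ (l + 1))
    (hδl : δ (l + 1) * (P : ℝ) ^ (6 * M) ≤ δ l)
    (hx : ∀ k, ∀ F ∈ (x k).L, ∀ a ∈ F, T (x k).cls a)
    (hH : ∀ j ∈ H, Spread (θ (l + 1)) (μ j) ∧
      ∀ a, μ j a ≠ 0 → Near f (x j).phi (δ (l + 1)) (insert (x j).cls (img a)))
    {k : Fin b} (hk : ¬ Lev R θ δ l f (x k)) :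
    (∀ j ∈ H, ρ4 ≤ gMass T (delC P M (δ (l + 1))) M (θ (l + 1)) ρ1 (x j) (x k) (μ j) →
      (x j).cls ≠ (x k).cls) ∧
    ((H.filter fun j => ρ4 ≤ gMass T (delC P M (δ (l + 1))) M (θ (l + 1)) ρ1 (x j) (x k) (μ j)).image
      fun j => (x j).cls).card * ρ5 ≤ (2 : ℝ) ^ M * θ l := by
  have hn2 : 2 * n + 2 ≤ M := hM ▸ card_bounds hl hn
  set J := H.filter fun j =>
    ρ4 ≤ gMass T (delC P M (δ (l + 1))) M (θ (l + 1)) ρ1 (x j) (x k) (μ j) with hJ
  have hI : ∀ j ∈ J, ∃ I : Finset (Fin n), ρ4 / 2 ^ n ≤ ∑ a ∈ univ.filter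
      (fun a => GamI T (delC P M (δ (l + 1))) M (θ (l + 1)) ρ1 (x j) (x k) I a), μ j a := by
    intro j hj
    simp only [hJ, mem_filter] at hj
    by_contra hc
    push Not at hc
    have hcov : gMass T (delC P M (δ (l + 1))) M (θ (l + 1)) ρ1 (x j) (x k) (μ j) ≤
        ∑ I : Finset (Fin n), ∑ a ∈ univ.filter
          (fun a => GamI T (delC P M (δ (l + 1))) M (θ (l + 1)) ρ1 (x j) (x k) I a), μ j a := by
      simp only [gMass, sum_filter]
      rw [sum_comm (s := (univ : Finset (Finset (Fin n))))]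
      refine sum_le_sum fun a _ => ?_
      have hnn : ∀ I ∈ (univ : Finset (Finset (Fin n))), 0 ≤
          if GamI T (delC P M (δ (l + 1))) M (θ (l + 1)) ρ1 (x j) (x k) I a then μ j a else 0 :=
        fun I _ => by split_ifs <;> simp [(hH j hj.1).1.1 a]
      by_cases hg : Gam T (delC P M (δ (l + 1))) M (θ (l + 1)) ρ1 (x j) (x k) a
      · rw [if_pos hg]
        obtain ⟨I, hI⟩ := hg
        exact le_trans (by rw [if_pos hI]) (single_le_sum hnn (mem_univ I))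
      · rw [if_neg hg]; exact sum_nonneg hnn
    have := hj.2.trans_lt (hcov.trans_lt
      (sum_lt_sum_of_nonempty univ_nonempty (fun I _ => hc I)))
    simp only [sum_const, card_univ, Fintype.card_finset, Fintype.card_fin, nsmul_eq_mul] at this
    push_cast at this
    rw [mul_div_cancel₀ _ (by positivity)] at this
    exact lt_irrefl _ this
  choose! I hI using hI
  have hsend : ∀ j ∈ J, ∃ m : (Fin n → Fin Q) × (Fin n → Fin Q) → ℝ,
      (∀ s, 0 ≤ m s) ∧ ∑ s, m s = 1 ∧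
      (∀ (J' : Finset (Fin n ⊕ {p : Fin n // p ∉ I j}))
        (v : Fin n ⊕ {p : Fin n // p ∉ I j} → Fin Q),
        ∑ s ∈ univ.filter (fun s => ∀ p ∈ J', pairTup (I j) s p = v p), m s ≤
          min ((1 / θ l) ^ J'.card) ((1 / θ (l + 1)) ^ J'.card / ρ5)) ∧
      ∀ s, m s ≠ 0 → Free (x k).L (insert (x j).cls (univ.image (pairTup (I j) s))) ∧
        Near f (x k).phi (δ l)
          (insert (x k).cls (insert (x j).cls (univ.image (pairTup (I j) s)))) := by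
    intro j hj
    have hjH := (mem_filter.1 hj).1
    refine sender hT hP hn2 hδ hδl hθh h1 h5 ?_ h51 hθl hle (hx k) (hH j hjH).1 (hH j hjH).2
      (hI j hj)
    rw [← mul_div_assoc, le_div_iff₀ (by positivity)]
    exact (mul_le_mul_of_nonneg_left (pow_le_pow_right₀ one_le_two (by omega)) h5.le).trans h5le
  have hsame : ∀ j ∈ H, ρ4 ≤ gMass T (delC P M (δ (l + 1))) M (θ (l + 1)) ρ1 (x j) (x k) (μ j) →
      (x j).cls ≠ (x k).cls := by
    intro j hj hg hcl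
    obtain ⟨m, hm0, hm1, hmsp, hms⟩ := hsend j (mem_filter.2 ⟨hj, hg⟩)
    exact hk (lev_same hl hn hcl hm0 hm1 hmsp hms)
  refine ⟨hsame, ?_⟩
  by_contra hc
  push Not at hc
  set Cl := J.image fun j => (x j).cls with hCl
  have hpick : ∀ c ∈ Cl, ∃ j ∈ J, (x j).cls = c := fun c hc => mem_image.1 hc
  have : Nonempty (Fin b) := ⟨k⟩
  choose! sel hsel1 hsel2 using hpick
  have hCl0 : (0 : ℝ) < Cl.card := by
    have : 0 < (Cl.card : ℝ) * ρ5 := lt_of_le_of_lt (by positivity) hc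
    exact pos_of_mul_pos_left this h5.le
  have hnat : 0 < Cl.card := by exact_mod_cast hCl0
  have hfi : ∀ c ∈ Cl, I (sel c) ∈ (univ : Finset (Finset (Fin n))) := fun c _ => mem_univ _
  obtain ⟨I0, -, hI0⟩ := exists_le_card_fiber_of_nsmul_le_card_of_maps_to
    (b := (Cl.card : ℝ) / (2 : ℝ) ^ n) hfi univ_nonempty (by
      simp only [card_univ, Fintype.card_finset, Fintype.card_fin, nsmul_eq_mul]
      push_cast
      rw [mul_div_cancel₀ _ (by positivity)])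
  set Rp := Cl.filter fun c => I (sel c) = I0 with hRp
  have hcard : θ l ≤ ρ5 * (Fintype.card {c // c ∈ Rp} : ℕ) := by
    rw [Fintype.card_coe]
    refine le_trans ?_ (mul_le_mul_of_nonneg_left hI0 h5.le)
    rw [← mul_div_assoc, le_div_iff₀ (by positivity)]
    have hp : (2 : ℝ) ^ n ≤ 2 ^ M := pow_le_pow_right₀ one_le_two (by omega)
    nlinarith [mul_le_mul_of_nonneg_left hp hθl.le]
  have hne : Nonempty {c // c ∈ Rp} := by
    rw [← Fintype.card_pos_iff]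
    by_contra h0
    have h00 : Fintype.card {c // c ∈ Rp} = 0 := by omega
    rw [h00] at hcard
    simp only [Nat.cast_zero, mul_zero] at hcard
    linarith
  have hRJ : ∀ c : {c // c ∈ Rp}, sel c.1 ∈ J ∧ (x (sel c.1)).cls = c.1 ∧ I (sel c.1) = I0 :=
    fun c => by
      have h := mem_filter.1 c.2
      exact ⟨hsel1 _ h.1, hsel2 _ h.1, h.2⟩
  have hm : ∀ c : {c // c ∈ Rp}, ∃ m : (Fin n → Fin Q) × (Fin n → Fin Q) → ℝ,
      (∀ s, 0 ≤ m s) ∧ ∑ s, m s = 1 ∧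
      (∀ (J' : Finset (Fin n ⊕ {p : Fin n // p ∉ I0})) (v : Fin n ⊕ {p : Fin n // p ∉ I0} → Fin Q),
        ∑ s ∈ univ.filter (fun s => ∀ p ∈ J', pairTup I0 s p = v p), m s ≤
          min ((1 / θ l) ^ J'.card) ((1 / θ (l + 1)) ^ J'.card / ρ5)) ∧
      ∀ s, m s ≠ 0 → Free (x k).L (insert c.1 (univ.image (pairTup I0 s))) ∧
        Near f (x k).phi (δ l) (insert (x k).cls (insert c.1 (univ.image (pairTup I0 s)))) := by
    intro c
    obtain ⟨h1', h2', h3'⟩ := hRJ c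
    have := hsend _ h1'
    rw [h2'] at this
    exact h3' ▸ this
  choose m hm0 hm1 hmsp hms using hm
  exact hk (lev_many hl hn (fun c : {c // c ∈ Rp} => c.1) Subtype.val_injective hθl
    (hle.trans (mul_le_of_le_one_left hθh.le h51)) hcard h5 h51 hm0 hm1 hmsp hms)

end Vale.Agent.P126.Neg.Force
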