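import Vale.Agent.P126.Neg.Force.Block

/-! Separation of two levels inside one block. -/

namespace Vale.Agent.P126.Neg.Force

open scoped Classical
open Finset

variable {Q P b n : ℕ} {V : Type}

theorem group_sep (hSample : SampleStmt) {M R l C E : ℕ} {θ δ : ℕ → ℝ}
    {S ω ρp ρ1 ρ3 ρ4 ρ5 η : ℝ} {r : ℕ} (hc : Cond C E M S ω ρp ρ1 ρ3 ρ4 ρ5 η r)
    (hM : M = 2 ^ R) (hl : l + 1 ≤ R) (hn : n ≤ depth R (l + 1)) (hP : 2 ≤ P)
    {T : Fin Q → Fin Q → Prop} (hT : ∀ i j, T i j → ¬ T j i)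
    (hθh : 0 < θ (l + 1)) (hθl : 0 < θ l) (hle : θ l ≤ ρ5 * θ (l + 1)) (hδ : 0 ≤ δ (l + 1))
    (hδl : δ (l + 1) * (P : ℝ) ^ (6 * M) ≤ δ l) {f : Omega Q P → V} {x : Fin b → Pt Q P V}
    (hx : ∀ k, PtOK T S M (x k)) {μ0 : ℕ}
    (hmult : (∀ j k, (x j).cls = (x k).cls) ∨
      ((∀ c, (univ.filter fun k => (x k).cls = c).card ≤ μ0) ∧
        (μ0 : ℝ) * 2 ^ M * θ l ≤ ρ3 / 8 * (ρ5 * (η * b))))
    (hdom : ∀ (H : Finset (Fin b)) (μ : Fin b → (Fin n → Fin Q) → ℝ),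
      (∀ j ∈ H, Spread (θ (l + 1)) (μ j) ∧ ∑ a, μ j a = 1 ∧ ∀ a, μ j a ≠ 0 →
        Free (x j).L (img a) ∧ Near f (x j).phi (δ (l + 1)) (insert (x j).cls (img a))) →
      (ρp - ρ1) * (H.card : ℝ) ^ 2 ≤ 2 * ∑ j ∈ H, ∑ k ∈ H,
        gMass T (delC P M (δ (l + 1))) M (θ (l + 1)) ρ1 (x j) (x k) (μ j))
    {Ex : Finset (Fin Q)} (hEd : Disjoint Ex (pool (delC P M (δ (l + 1))) M x))
    (hEc : M ≤ Ex.card) (H : Finset (Fin b)) (μ : Fin b → (Fin n → Fin Q) → ℝ)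
    (hH : ∀ j ∈ H, Spread (θ (l + 1)) (μ j) ∧ ∑ a, μ j a = 1 ∧ ∀ a, μ j a ≠ 0 →
      Free (x j).L (img a) ∧ Near f (x j).phi (δ (l + 1)) (insert (x j).cls (img a))) :
    ∃ U ∈ famN T (delC P M (δ (l + 1))) M (θ (l + 1)) ρ1 ρ3 x r n Ex,
      ((H \ U).card : ℝ) + ((univ.filter fun i => i ∈ U ∧ ¬ Lev R θ δ l f (x i)).card : ℝ)
        ≤ 3 * η * b := by
  have hb0 : (0 : ℝ) ≤ η * b := mul_nonneg hc.eta.le (Nat.cast_nonneg b)
  by_cases hsmall : (H.card : ℝ) < η * b ∨ H = ∅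
  · refine ⟨∅, mem_insert_self _ _, ?_⟩
    simp only [sdiff_empty, notMem_empty, false_and, filter_false, card_empty, Nat.cast_zero,
      add_zero]
    rcases hsmall with h | h
    · linarith
    · simp [h]; linarith
  rw [not_or, not_lt] at hsmall
  obtain ⟨hbig, hne⟩ := hsmall
  have hh0 : (0 : ℝ) < H.card := by
    exact_mod_cast card_pos.2 (nonempty_iff_ne_empty.2 hne)
  set δ' := delC P M (δ (l + 1)) with hδ'
  set G : Fin b → Fin b → ℝ := fun j k => gMass T δ' M (θ (l + 1)) ρ1 (x j) (x k) (μ j) with hG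
  have hn2 : 2 * n + 2 ≤ M := hM ▸ card_bounds hl hn
  have hGnn : ∀ j ∈ H, ∀ k, 0 ≤ G j k := fun j hj k => gMass_nonneg (hH j hj).1
  obtain ⟨κ, hκ⟩ := exists_key T δ' (θ (l + 1)) ρ1 M x Ex hEd (n := n) (by omega)
  set π : Fin b × (Fin n → Fin Q) → ℝ := fun u => if u.1 ∈ H then μ u.1 u.2 / H.card else 0
  have hπ0 : ∀ u, 0 ≤ π u := fun u => by
    simp only [π]
    split_ifs with h
    · exact div_nonneg ((hH _ h).1.1 _) hh0.le
    · exact le_rfl
  have hπ1 : ∑ u, π u = 1 := by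
    simp only [π, Fintype.sum_prod_type]
    rw [← sum_subset (subset_univ H) (fun j _ hj => by simp [hj])]
    rw [sum_congr rfl fun j hj => (show ∑ a, (if j ∈ H then μ j a / (H.card : ℝ) else 0) =
      1 / (H.card : ℝ) by simp [hj, ← sum_div, (hH j hj).2.1])]
    rw [sum_const, nsmul_eq_mul, mul_one_div, div_self hh0.ne']
  have hΦ : ∀ k, ∑ u ∈ univ.filter (fun u : Fin b × (Fin n → Fin Q) =>
      Gam T δ' M (θ (l + 1)) ρ1 (x u.1) (x k) u.2), π u = (∑ j ∈ H, G j k) / H.card := by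
    intro k
    simp only [π, sum_filter, Fintype.sum_prod_type]
    rw [← sum_subset (subset_univ H) (fun j _ hj => by simp [hj]), sum_div]
    refine sum_congr rfl fun j hj => ?_
    simp only [hG, gMass, if_pos hj, sum_div, sum_filter]
    refine sum_congr rfl fun a _ => ?_
    split_ifs <;> simp
  obtain ⟨s, hs, hbound⟩ := hSample (Fin b × (Fin n → Fin Q))
    ((univ : Finset (Fin b)) ×ˢ tuplesIn n (pool δ' M x ∪ Ex)) (fun u => (u.1, κ u.2)) b r
    (fun u k => Gam T δ' M (θ (l + 1)) ρ1 (x u.1) (x k) u.2) π ρ3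
    (fun u => mem_product.2 ⟨mem_univ _, (hκ u.2).1⟩) (fun u k => (hκ u.2).2 u.1 k)
    hπ0 hπ1 hc.r3_pos hc.r_pos
  simp only [hΦ] at hbound
  refine ⟨sampleSet T δ' M (θ (l + 1)) ρ1 ρ3 x s, mem_insert_of_mem (mem_image.2
    ⟨s, Fintype.mem_piFinset.2 hs, rfl⟩), ?_⟩
  set U := sampleSet T δ' M (θ (l + 1)) ρ1 ρ3 x s with hU
  set H' := H.filter fun k => (∑ j ∈ H, G j k) / H.card < ρ3 with hH'
  have hH'le : (H'.card : ℝ) ≤ η * b := by
    have hsub : H' ⊆ H := filter_subset _ _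
    have h1 := hdom H' μ (fun j hj => hH j (hsub hj))
    have h2 : ∑ j ∈ H', ∑ k ∈ H', G j k ≤ (H'.card : ℝ) * (ρ3 * H.card) := by
      rw [sum_comm, ← nsmul_eq_mul, ← sum_const]
      refine sum_le_sum fun k hk => ?_
      refine le_trans (sum_le_sum_of_subset_of_nonneg hsub fun j hj _ => hGnn j hj k) ?_
      exact ((div_lt_iff₀ hh0).1 (mem_filter.1 hk).2).le
    have hbH : (H.card : ℝ) ≤ b := by
      exact_mod_cast (card_le_univ H).trans (by simp)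
    rcases Nat.eq_zero_or_pos H'.card with h0 | h0
    · rw [h0]; simpa using hb0
    have hp : 0 < ρp := by linarith [hc.r1, hc.r1_pos]
    have h3 : ρp / 2 * (H'.card : ℝ) * H'.card ≤ ρp / 2 * (η * b) * H'.card := by
      have e1 : ρp / 2 * (H'.card : ℝ) ^ 2 ≤ (ρp - ρ1) * (H'.card : ℝ) ^ 2 := by
        gcongr; linarith [hc.r1]
      have e2 : ρ3 * (H.card : ℝ) ≤ ρp * η / 4 * b :=
        mul_le_mul hc.r3 hbH hh0.le (div_nonneg (mul_nonneg hp.le hc.eta.le) (by norm_num))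
      have e3 := mul_le_mul_of_nonneg_left e2 (Nat.cast_nonneg (α := ℝ) H'.card)
      simp only [hG] at h2
      nlinarith
    have h4 := le_of_mul_le_mul_right h3 (by exact_mod_cast h0)
    exact le_of_mul_le_mul_left h4 (by linarith)
  have hlow : ∀ k, ¬ Lev R θ δ l f (x k) → (∑ j ∈ H, G j k) / H.card ≤ ρ3 / 4 := by
    intro k hk
    obtain ⟨hne', hcount⟩ := forced_few (T := T) hT hP hM hl hn (f := f) (x := x) (H := H)
      (μ := μ) hc.r1_pos.le hc.r5_pos hc.r5 hc.r5_one hθh hθl hle hδ hδl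
      (fun k F hF => ((hx k).2 F hF).2.2)
      (fun j hj => ⟨(hH j hj).1, fun a ha => ((hH j hj).2.2 a ha).2⟩) hk
    set J := H.filter fun j => ρ4 ≤ G j k with hJ
    have hJc : (J.card : ℝ) ≤ ρ3 / 8 * H.card := by
      rcases hmult with hone | ⟨hmu, hsm⟩
      · have : J = ∅ := filter_eq_empty_iff.2 fun j hj hg => hne' j hj hg (hone j k)
        rw [this, card_empty, Nat.cast_zero]
        exact mul_nonneg (by linarith [hc.r3_pos]) hh0.le
      · have h1 : J.card ≤ μ0 * (J.image fun j => (x j).cls).card :=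
          card_le_mul_card_image J μ0 fun c _ =>
            (card_le_card (filter_subset_filter _ (subset_univ J))).trans (hmu c)
        have h1' : (J.card : ℝ) ≤ μ0 * ((J.image fun j => (x j).cls).card : ℝ) := by
          exact_mod_cast h1
        have h2 := mul_le_mul_of_nonneg_left hcount (Nat.cast_nonneg (α := ℝ) μ0)
        have h3 := mul_le_mul_of_nonneg_left hbig
          (mul_nonneg (by linarith [hc.r3_pos] : (0 : ℝ) ≤ ρ3 / 8) hc.r5_pos.le)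
        have h4 := mul_le_mul_of_nonneg_right h1' hc.r5_pos.le
        refine le_of_mul_le_mul_right ?_ hc.r5_pos
        simp only [hJ, hG] at h2 h4 ⊢
        nlinarith
    rw [div_le_iff₀ hh0]
    calc ∑ j ∈ H, G j k ≤ ∑ j ∈ H, ((if ρ4 ≤ G j k then (1 : ℝ) else 0) + ρ4) := by
          refine sum_le_sum fun j hj => ?_
          split_ifs with h
          · have : G j k ≤ 1 := le_trans (sum_le_sum_of_subset_of_nonneg (subset_univ _)
              fun a _ _ => (hH j hj).1.1 a) (hH j hj).2.1.le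
            linarith [hc.r4_pos]
          · rw [zero_add]; exact (not_le.1 h).le
      _ = (J.card : ℝ) + H.card * ρ4 := by
          rw [sum_add_distrib, sum_boole, sum_const, nsmul_eq_mul]
      _ ≤ ρ3 / 4 * H.card := by
          have := mul_le_mul_of_nonneg_left hc.r4 hh0.le
          linarith
  have hs1 : H \ U ⊆ H' ∪ univ.filter (fun k => ρ3 ≤ (∑ j ∈ H, G j k) / H.card ∧
      ((univ.filter fun t => Gam T δ' M (θ (l + 1)) ρ1 (x (s t).1) (x k) (s t).2).card : ℝ) <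
        ρ3 / 2 * r) := by
    intro k hk
    simp only [mem_sdiff, hU, sampleSet, mem_filter, mem_univ, true_and, not_le] at hk
    by_cases h : (∑ j ∈ H, G j k) / H.card < ρ3
    · exact mem_union_left _ (mem_filter.2 ⟨hk.1, h⟩)
    · refine mem_union_right _ (mem_filter.2 ⟨mem_univ _, not_lt.1 h, ?_⟩)
      exact hk.2
  have hs2 : (univ.filter fun i => i ∈ U ∧ ¬ Lev R θ δ l f (x i)) ⊆
      univ.filter (fun k => (∑ j ∈ H, G j k) / H.card ≤ ρ3 / 4 ∧ ρ3 / 2 * r ≤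
        ((univ.filter fun t => Gam T δ' M (θ (l + 1)) ρ1 (x (s t).1) (x k) (s t).2).card : ℝ)) := by
    intro k hk
    simp only [hU, sampleSet, mem_filter, mem_univ, true_and] at hk ⊢
    exact ⟨hlow k hk.2, hk.1⟩
  have c1 := (Nat.cast_le (α := ℝ)).2 ((card_le_card hs1).trans (card_union_le _ _))
  have c2 := (Nat.cast_le (α := ℝ)).2 (card_le_card hs2)
  push_cast at c1
  have hsamp : 32 * (b : ℝ) / (r * ρ3 ^ 2) ≤ η * b := by
    rw [mul_comm (32 : ℝ), mul_div_assoc, mul_comm η]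
    exact mul_le_mul_of_nonneg_left hc.samp (Nat.cast_nonneg b)
  simp only [hG] at c1 c2 hbound ⊢
  linarith

theorem block_sep (hSample : SampleStmt) {M R l C E : ℕ} {θ δ : ℕ → ℝ}
    {S ω ρp ρ1 ρ3 ρ4 ρ5 η : ℝ} {r : ℕ} (hc : Cond C E M S ω ρp ρ1 ρ3 ρ4 ρ5 η r)
    (hM : M = 2 ^ R) (hl : l + 1 ≤ R) (hP : 2 ≤ P)
    {T : Fin Q → Fin Q → Prop} (hT : ∀ i j, T i j → ¬ T j i)
    (hθh : 0 < θ (l + 1)) (hθl : 0 < θ l) (hle : θ l ≤ ρ5 * θ (l + 1)) (hδ : 0 ≤ δ (l + 1))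
    (hδl : δ (l + 1) * (P : ℝ) ^ (6 * M) ≤ δ l) {x : Fin b → Pt Q P V}
    (hx : ∀ k, PtOK T S M (x k)) {μ0 : ℕ}
    (hmult : (∀ j k, (x j).cls = (x k).cls) ∨
      ((∀ c, (univ.filter fun k => (x k).cls = c).card ≤ μ0) ∧
        (μ0 : ℝ) * 2 ^ M * θ l ≤ ρ3 / 8 * (ρ5 * (η * b))))
    (hdom : ∀ n : ℕ, 2 * n + 2 ≤ M → ∀ (f : Omega Q P → V) (H : Finset (Fin b))
      (μ : Fin b → (Fin n → Fin Q) → ℝ),
      (∀ j ∈ H, Spread (θ (l + 1)) (μ j) ∧ ∑ a, μ j a = 1 ∧ ∀ a, μ j a ≠ 0 →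
        Free (x j).L (img a) ∧ Near f (x j).phi (δ (l + 1)) (insert (x j).cls (img a))) →
      (ρp - ρ1) * (H.card : ℝ) ^ 2 ≤ 2 * ∑ j ∈ H, ∑ k ∈ H,
        gMass T (delC P M (δ (l + 1))) M (θ (l + 1)) ρ1 (x j) (x k) (μ j))
    {Ex : Finset (Fin Q)} (hEd : Disjoint Ex (pool (delC P M (δ (l + 1))) M x))
    (hEc : M ≤ Ex.card) (f : Omega Q P → V) :
    ∃ U ∈ famB T (delC P M (δ (l + 1))) M (θ (l + 1)) ρ1 ρ3 x r Ex,
      ((univ.filter fun i => Lev R θ δ (l + 1) f (x i) ∧ i ∉ U).card : ℝ) +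
        ((univ.filter fun i => i ∈ U ∧ ¬ Lev R θ δ l f (x i)).card : ℝ)
          ≤ 3 * (M + 1) * η * b := by
  have hgroup : ∀ n : Fin (M + 1), ∃ U ∈ famN T (delC P M (δ (l + 1))) M (θ (l + 1)) ρ1 ρ3 x r n Ex,
      ((univ.filter fun i => ((n : ℕ) ≤ depth R (l + 1) ∧ ∃ μ : (Fin n → Fin Q) → ℝ,
        Spread (θ (l + 1)) μ ∧ ∑ a, μ a = 1 ∧ ∀ a, μ a ≠ 0 → Free (x i).L (img a) ∧
          Near f (x i).phi (δ (l + 1)) (insert (x i).cls (img a))) ∧ i ∉ U).card : ℝ) +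
        ((univ.filter fun i => i ∈ U ∧ ¬ Lev R θ δ l f (x i)).card : ℝ) ≤ 3 * η * b := by
    intro n
    by_cases hn : (n : ℕ) ≤ depth R (l + 1)
    · set H := univ.filter fun i => ∃ μ : (Fin n → Fin Q) → ℝ,
        Spread (θ (l + 1)) μ ∧ ∑ a, μ a = 1 ∧ ∀ a, μ a ≠ 0 → Free (x i).L (img a) ∧
          Near f (x i).phi (δ (l + 1)) (insert (x i).cls (img a)) with hHdef
      have hH : ∀ i ∈ H, ∃ μ : (Fin n → Fin Q) → ℝ,
          Spread (θ (l + 1)) μ ∧ ∑ a, μ a = 1 ∧ ∀ a, μ a ≠ 0 → Free (x i).L (img a) ∧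
            Near f (x i).phi (δ (l + 1)) (insert (x i).cls (img a)) := fun i hi => by
        simpa [hHdef] using hi
      choose! μ hμ using hH
      obtain ⟨U, hU, hle'⟩ := group_sep hSample hc hM hl hn hP hT hθh hθl hle hδ hδl hx hmult
        (hdom n (by have := card_bounds hl hn; omega) f) hEd hEc H μ hμ
      refine ⟨U, hU, le_trans (add_le_add (Nat.cast_le.2 (card_le_card ?_)) le_rfl) hle'⟩
      intro i hi
      simp only [mem_filter, mem_univ, true_and] at hi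
      simp only [mem_sdiff, hHdef, mem_filter, mem_univ, true_and]
      exact ⟨hi.1.2, hi.2⟩
    · refine ⟨∅, mem_insert_self _ _, ?_⟩
      simp only [hn, false_and, notMem_empty, filter_false, card_empty, Nat.cast_zero, add_zero]
      exact mul_nonneg (mul_nonneg zero_le_three hc.eta.le) (Nat.cast_nonneg b)
  choose U hU hUle using hgroup
  refine ⟨univ.biUnion U, mem_image.2 ⟨U, Fintype.mem_piFinset.2 hU, rfl⟩, ?_⟩
  have e1 : (univ.filter fun i => Lev R θ δ (l + 1) f (x i) ∧ i ∉ univ.biUnion U) ⊆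
      univ.biUnion fun n : Fin (M + 1) => univ.filter fun i =>
        ((n : ℕ) ≤ depth R (l + 1) ∧ ∃ μ : (Fin n → Fin Q) → ℝ,
          Spread (θ (l + 1)) μ ∧ ∑ a, μ a = 1 ∧ ∀ a, μ a ≠ 0 → Free (x i).L (img a) ∧
            Near f (x i).phi (δ (l + 1)) (insert (x i).cls (img a))) ∧ i ∉ U n := by
    intro i hi
    simp only [mem_filter, mem_univ, true_and, mem_biUnion, not_exists] at hi
    obtain ⟨⟨n, hn, hμ⟩, hiU⟩ := hi
    have : n < M + 1 := by have := card_bounds hl hn; omega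
    simp only [mem_biUnion, mem_univ, true_and, mem_filter]
    exact ⟨⟨n, this⟩, ⟨hn, hμ⟩, hiU ⟨n, this⟩⟩
  have e2 : (univ.filter fun i => i ∈ univ.biUnion U ∧ ¬ Lev R θ δ l f (x i)) ⊆
      univ.biUnion fun n : Fin (M + 1) =>
        univ.filter fun i => i ∈ U n ∧ ¬ Lev R θ δ l f (x i) := by
    intro i hi
    simp only [mem_filter, mem_univ, true_and, mem_biUnion] at hi ⊢
    obtain ⟨⟨n, hn⟩, hi2⟩ := hi
    exact ⟨n, hn, hi2⟩
  have c1 := (Nat.cast_le (α := ℝ)).2 ((card_le_card e1).trans card_biUnion_le)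
  have c2 := (Nat.cast_le (α := ℝ)).2 ((card_le_card e2).trans card_biUnion_le)
  push_cast at c1 c2
  refine (add_le_add c1 c2).trans ?_
  rw [← sum_add_distrib]
  refine (sum_le_sum fun n _ => hUle n).trans (le_of_eq ?_)
  rw [sum_const, card_univ, Fintype.card_fin, nsmul_eq_mul]
  push_cast
  ring

end Vale.Agent.P126.Neg.Force
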