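import Vale.Agent.P126.Neg.Force.Lift

/-! Among points of high level many pairs can force. -/

namespace Vale.Agent.P126.Neg.Force

open scoped Classical
open Finset

variable {Q P b n : ℕ} {V : Type}

/-- The probability under `μ` that a tuple of `x` can force `y`. -/
noncomputable def gMass (T : Fin Q → Fin Q → Prop) (δ' : ℝ) (M : ℕ) (θ ρ1 : ℝ) (x y : Pt Q P V)
    (μ : (Fin n → Fin Q) → ℝ) : ℝ :=
  ∑ a ∈ univ.filter (fun a => Gam T δ' M θ ρ1 x y a), μ a

theorem gMass_nonneg {T : Fin Q → Fin Q → Prop} {δ' θ ρ1 : ℝ} {M : ℕ} {x y : Pt Q P V}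
    {μ : (Fin n → Fin Q) → ℝ} (hμ : Spread θ μ) : 0 ≤ gMass T δ' M θ ρ1 x y μ :=
  sum_nonneg fun a _ => hμ.1 a

theorem compat_of_near (hP : 0 < P) {M : ℕ} {δh : ℝ} (hδ : 0 ≤ δh) {f : Omega Q P → V}
    {x y : Pt Q P V} {a c : Fin n → Fin Q} (hn : 2 * n + 2 ≤ M)
    (h1 : Near f x.phi δh (insert x.cls (img a))) (h2 : Near f y.phi δh (insert y.cls (img c))) :
    Compat (delC P M δh) M x y (img a ∪ img c) := by
  have hcard := card_union_img_le a c
  refine compat_of_diff (delC_nonneg hδ) (by omega) ?_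
  set W := ({x.cls, y.cls} : Finset (Fin Q)) ∪ (img a ∪ img c) with hW
  have hsub : diff x y W ⊆ ((cyl (insert x.cls (img a))).filter fun w => f w ≠ x.phi w) ∪
      ((cyl (insert y.cls (img c))).filter fun w => f w ≠ y.phi w) := by
    intro w hw
    simp only [diff, mem_filter] at hw
    simp only [mem_union, mem_filter]
    by_cases he : f w = x.phi w
    · refine Or.inr ⟨cyl_anti ?_ hw.1, by rw [he]; exact hw.2⟩
      intro i; simp [hW]; tauto
    · refine Or.inl ⟨cyl_anti ?_ hw.1, he⟩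
      intro i; simp [hW]; tauto
  have h3 := (Nat.cast_le (α := ℝ)).2 ((card_le_card hsub).trans (card_union_le _ _))
  push_cast at h3
  have hWc : W.card ≤ M := by
    have e1 : W.card ≤ ({x.cls, y.cls} : Finset (Fin Q)).card + (img a ∪ img c).card :=
      card_union_le _ _
    have e2 : ({x.cls, y.cls} : Finset (Fin Q)).card ≤ 2 := card_le_two
    omega
  have hb : ∀ A : Finset (Fin Q), ((cyl (P := P) A).card : ℝ) ≤
      (cyl (P := P) W).card * (P : ℝ) ^ M := fun A => by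
    exact_mod_cast cyl_card_le_mul hP (A := A) (B := W) (t := M) (by omega)
  have h4 := mul_le_mul_of_nonneg_left (hb (insert x.cls (img a))) hδ
  have h5 := mul_le_mul_of_nonneg_left (hb (insert y.cls (img c))) hδ
  have h6 : delC P M δh / 2 ^ M = 2 * δh * (P : ℝ) ^ M := by
    rw [delC, pow_succ]; field_simp
  rw [h6]
  unfold Near at h1 h2
  linarith

/-- If `x` may be the root for `y`, the colliding pairs that avoid both lists are forcing pairs. -/
theorem pair_le_gMass {T : Fin Q → Fin Q → Prop} {M : ℕ} {δh θ ρ1 : ℝ} (hθ : 0 < θ)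
    (h1 : 0 ≤ ρ1) (hP : 0 < P) (hδ : 0 ≤ δh) (hn : 2 * n + 2 ≤ M) {f : Omega Q P → V}
    {x y : Pt Q P V} (ho : Orient T x y) {μ ν : (Fin n → Fin Q) → ℝ} (hμ : Spread θ μ)
    (hν : Spread θ ν) (hμ1 : ∑ a, μ a = 1)
    (hμf : ∀ a, μ a ≠ 0 → Near f x.phi δh (insert x.cls (img a)))
    (hνf : ∀ a, ν a ≠ 0 → Near f y.phi δh (insert y.cls (img a))) (I : Finset (Fin n)) :
    θ ^ I.card * ∑ a, ∑ c ∈ univ.filter (fun c => (∀ p ∈ I, c p = a p) ∧
      Free x.L (img a ∪ img c) ∧ Free y.L (img a ∪ img c)), μ a * ν c ≤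
        gMass T (delC P M δh) M θ ρ1 x y μ + ρ1 := by
  have hnn : ∀ a, 0 ≤ θ ^ I.card * ∑ c ∈ univ.filter (fun c => Link (delC P M δh) M x y I a c),
      ν c := fun a => mul_nonneg (by positivity) (sum_nonneg fun c _ => hν.1 c)
  calc θ ^ I.card * ∑ a, ∑ c ∈ univ.filter (fun c => (∀ p ∈ I, c p = a p) ∧
        Free x.L (img a ∪ img c) ∧ Free y.L (img a ∪ img c)), μ a * ν c
      ≤ ∑ a, μ a * (θ ^ I.card *
          ∑ c ∈ univ.filter (fun c => Link (delC P M δh) M x y I a c), ν c) := by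
        rw [mul_sum]
        refine sum_le_sum fun a _ => ?_
        rw [← mul_sum, mul_left_comm]
        by_cases ha : μ a = 0
        · simp [ha]
        refine mul_le_mul_of_nonneg_left (mul_le_mul_of_nonneg_left ?_ (by positivity)) (hμ.1 a)
        rw [sum_filter, sum_filter]
        refine sum_le_sum fun c _ => ?_
        by_cases hc : ν c = 0
        · simp [hc]
        split_ifs with h h' h'
        · exact le_rfl
        · exact absurd ⟨h.1, h.2.2, compat_of_near hP hδ hn (hμf a ha) (hνf c hc)⟩ h'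
        · exact hν.1 c
        · exact le_rfl
    _ ≤ ∑ a, ((if Gam T (delC P M δh) M θ ρ1 x y a then μ a else 0) + μ a * ρ1) := by
        refine sum_le_sum fun a _ => ?_
        split_ifs with hg
        · have hX : θ ^ I.card *
              ∑ c ∈ univ.filter (fun c => Link (delC P M δh) M x y I a c), ν c ≤ 1 := by
            refine le_trans (mul_le_mul_of_nonneg_left ((sum_le_sum_of_subset_of_nonneg
              (t := univ.filter fun c : Fin n → Fin Q => ∀ p ∈ I, c p = a p) (fun c hc => by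
                simp only [mem_filter, mem_univ, true_and] at hc ⊢
                exact hc.1) (fun c _ _ => hν.1 c)).trans (hν.2 I a)) (by positivity)) ?_
            rw [← mul_pow, mul_one_div, div_self hθ.ne', one_pow]
          have := mul_le_mul_of_nonneg_left hX (hμ.1 a)
          nlinarith [hμ.1 a, mul_nonneg (hμ.1 a) h1]
        · rw [zero_add]
          refine mul_le_mul_of_nonneg_left (le_of_not_ge fun h => hg ?_) (hμ.1 a)
          exact ⟨I, ho, ν, hν, h⟩
    _ = gMass T (delC P M δh) M θ ρ1 x y μ + ρ1 := by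
        rw [sum_add_distrib, ← sum_mul, hμ1, one_mul, gMass, sum_filter]

theorem pair_symm {θ : ℝ} (I : Finset (Fin n)) (μ ν : (Fin n → Fin Q) → ℝ)
    (L L' : Finset (Finset (Fin Q))) :
    θ ^ I.card * ∑ a, ∑ c ∈ univ.filter (fun c => (∀ p ∈ I, c p = a p) ∧
        Free L (img a ∪ img c) ∧ Free L' (img a ∪ img c)), μ a * ν c =
      θ ^ I.card * ∑ c, ∑ a ∈ univ.filter (fun a => (∀ p ∈ I, a p = c p) ∧
        Free L' (img c ∪ img a) ∧ Free L (img c ∪ img a)), ν c * μ a := by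
  congr 1
  simp only [sum_filter]
  rw [sum_comm]
  refine sum_congr rfl fun c _ => sum_congr rfl fun a _ => ?_
  simp only [union_comm (img c) (img a), mul_comm (μ a), eq_comm (a := c _),
    and_comm (a := Free L (img a ∪ img c))]

theorem gMass_lower (hPairs : PairsStmt) (M : ℕ) : ∃ C E : ℕ, 1 ≤ C ∧
    ∀ (Q P n b : ℕ) (V : Type) (T : Fin Q → Fin Q → Prop) (θ ω S ρ1 δh : ℝ)
      (f : Omega Q P → V) (x : Fin b → Pt Q P V) (H : Finset (Fin b))
      (μ : Fin b → (Fin n → Fin Q) → ℝ),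
      0 < P → 0 < θ → 2 * n + 2 ≤ M → 1 ≤ ω → (P : ℝ) ≤ ω * θ → 1 ≤ S → 0 ≤ δh → 0 ≤ ρ1 →
      (∀ i j, i ≠ j → T i j ∨ T j i) →
      (∀ k, DegOK P S M (x k).L ∧ ∀ F ∈ (x k).L, F.card ≤ M) →
      (∀ j ∈ H, Spread θ (μ j) ∧ ∑ a, μ j a = 1 ∧ ∀ a, μ j a ≠ 0 →
        Free (x j).L (img a) ∧ Near f (x j).phi δh (insert (x j).cls (img a))) →
      (1 / ((C : ℝ) * S * ω) ^ E - ρ1) * (H.card : ℝ) ^ 2 ≤
        2 * ∑ j ∈ H, ∑ k ∈ H, gMass T (delC P M δh) M θ ρ1 (x j) (x k) (μ j) := by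
  obtain ⟨C, E, hC, hp⟩ := hPairs M
  refine ⟨C, E, hC, fun Q P n b V T θ ω S ρ1 δh f x H μ hP hθ hn hω hPθ hS hδ h1 hT hx hH => ?_⟩
  rcases H.eq_empty_or_nonempty with hH0 | hH0
  · simp [hH0]
  set e := H.equivFin.symm
  obtain ⟨I, hI⟩ := hp Q P H.card n θ ω S hP (card_pos.2 hH0) hθ (by omega) hω hPθ hS
    (fun i => (x (e i)).L) (fun i => μ (e i)) (fun i => hx _)
    (fun i => ⟨(hH _ (e i).2).1, (hH _ (e i).2).2.1, fun a ha => ((hH _ (e i).2).2.2 a ha).1⟩)
  set S2 : Fin b → Fin b → ℝ := fun j k => θ ^ I.card * ∑ a, ∑ c ∈ univ.filter (fun c =>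
    (∀ p ∈ I, c p = a p) ∧ Free (x j).L (img a ∪ img c) ∧ Free (x k).L (img a ∪ img c)),
      μ j a * μ k c with hS2
  set G : Fin b → Fin b → ℝ := fun j k => gMass T (delC P M δh) M θ ρ1 (x j) (x k) (μ j)
  have hle : ∀ j ∈ H, ∀ k ∈ H, S2 j k ≤ G j k + G k j + ρ1 := by
    intro j hj k hk
    have gj : 0 ≤ G j k := gMass_nonneg (hH j hj).1
    have gk : 0 ≤ G k j := gMass_nonneg (hH k hk).1
    by_cases ho : Orient T (x j) (x k)
    · have := pair_le_gMass hθ h1 hP hδ hn ho (hH j hj).1 (hH k hk).1 (hH j hj).2.1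
        (fun a ha => ((hH j hj).2.2 a ha).2) (fun a ha => ((hH k hk).2.2 a ha).2) I
      simp only [hS2]
      linarith
    · have ho' : Orient T (x k) (x j) := by
        simp only [Orient, not_or] at ho ⊢
        rcases hT _ _ ho.1 with h | h
        · exact absurd h ho.2
        · exact Or.inr h
      have := pair_le_gMass hθ h1 hP hδ hn ho' (hH k hk).1 (hH j hj).1 (hH k hk).2.1
        (fun a ha => ((hH k hk).2.2 a ha).2) (fun a ha => ((hH j hj).2.2 a ha).2) I
      simp only [hS2]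
      rw [pair_symm]
      linarith
  have hsum : θ ^ I.card * ∑ i : Fin H.card, ∑ i' : Fin H.card, ∑ a, ∑ c ∈ univ.filter (fun c =>
      (∀ p ∈ I, c p = a p) ∧ Free (x (e i)).L (img a ∪ img c) ∧
        Free (x (e i')).L (img a ∪ img c)), μ (e i) a * μ (e i') c =
      ∑ j ∈ H, ∑ k ∈ H, S2 j k := by
    rw [← sum_coe_sort H, ← e.sum_comp, mul_sum]
    refine sum_congr rfl fun i _ => ?_
    rw [← sum_coe_sort H, ← e.sum_comp, mul_sum]
  rw [hsum] at hI
  have h2 : ∑ j ∈ H, ∑ k ∈ H, (G j k + G k j + ρ1) =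
      2 * ∑ j ∈ H, ∑ k ∈ H, G j k + ρ1 * (H.card : ℝ) ^ 2 := by
    simp only [sum_add_distrib, sum_const, nsmul_eq_mul]
    rw [sum_comm (f := fun j k => G k j)]
    ring
  have := hI.trans ((sum_le_sum fun j hj => sum_le_sum fun k hk => hle j hj k hk).trans h2.le)
  linarith

end Vale.Agent.P126.Neg.Force
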