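import Vale.Agent.P126.Neg.Force.Measure

/-! Forcing points give the next lower level to the forced one. -/

namespace Vale.Agent.P126.Neg.Force

open scoped Classical
open Finset

variable {Q P n : ℕ} {V : Type}

theorem spread_zero {θ : ℝ} (hθ : 0 < θ) : Spread θ (fun _ : Fin n → Fin Q => (0 : ℝ)) :=
  ⟨fun _ => le_rfl, fun I v => by simp only [sum_const_zero]; positivity⟩

theorem Spread.le_one {θ : ℝ} {ν : (Fin n → Fin Q) → ℝ} (h : Spread θ ν) (v : Fin n → Fin Q) :
    ∑ a, ν a ≤ 1 := by simpa using h.2 ∅ v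

theorem depth_succ {R l : ℕ} (hl : l + 1 ≤ R) : depth R l = 2 * depth R (l + 1) + 1 := by
  obtain ⟨t, ht⟩ : ∃ t, R - l = t + 1 ∧ R - (l + 1) = t := ⟨R - (l + 1), by omega, rfl⟩
  have h2 := Nat.two_pow_pos t
  simp only [depth, ht.1, ht.2, pow_succ]
  omega

theorem card_bounds {R l : ℕ} (hl : l + 1 ≤ R) (hn : n ≤ depth R (l + 1)) :
    2 * n + 2 ≤ 2 ^ R := by
  have h1 : depth R l = 2 ^ (R - l) - 1 := rfl
  have h2 := depth_succ hl
  have h3 : 2 ^ (R - l) ≤ 2 ^ R := Nat.pow_le_pow_right two_pos (by omega)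
  have h4 : 0 < 2 ^ (R - l) := Nat.two_pow_pos _
  omega

/-- The compatibility threshold at which forcing works. -/
noncomputable def delC (P M : ℕ) (δh : ℝ) : ℝ := δh * 2 ^ (M + 1) * (P : ℝ) ^ M

theorem delC_nonneg {P M : ℕ} {δh : ℝ} (h : 0 ≤ δh) : 0 ≤ delC P M δh := by
  unfold delC; positivity

theorem near_forced (hP : 2 ≤ P) {M : ℕ} {δh δl : ℝ} (hδ : 0 ≤ δh)
    (hδl : δh * (P : ℝ) ^ (6 * M) ≤ δl) (hM : 1 ≤ M)
    {f : Omega Q P → V} {x y : Pt Q P V} {A U : Finset (Fin Q)} (hU : U.card + 2 ≤ M) (hA : A ⊆ U)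
    (h : Near f x.phi δh (insert x.cls A)) (hc : Compat (delC P M δh) M x y U) :
    Near f y.phi δl (insert y.cls (insert x.cls U)) := by
  have hP0 : 0 < P := by omega
  have hset : insert y.cls (insert x.cls U) = {x.cls, y.cls} ∪ U := by
    ext i; simp; tauto
  set W := insert y.cls (insert x.cls U) with hW
  have h1 : ((cyl W).filter fun w => f w ≠ y.phi w) ⊆
      ((cyl (insert x.cls A)).filter fun w => f w ≠ x.phi w) ∪ diff x y W := by
    intro w hw
    simp only [mem_filter] at hw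
    simp only [mem_union, mem_filter, diff]
    by_cases he : f w = x.phi w
    · exact Or.inr ⟨hw.1, by rw [← he]; exact hw.2⟩
    · refine Or.inl ⟨cyl_anti ?_ hw.1, he⟩
      exact (insert_subset_insert _ hA).trans (subset_insert _ _)
  have h2 := (Nat.cast_le (α := ℝ)).2 ((card_le_card h1).trans (card_union_le _ _))
  push_cast at h2
  have h3 : ((cyl (P := P) (insert x.cls A)).card : ℝ) ≤ (cyl (P := P) W).card * (P : ℝ) ^ M := by
    exact_mod_cast cyl_card_le_mul hP0 (A := insert x.cls A) (B := W) (t := M) (by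
      have e1 : W.card ≤ (insert x.cls U).card + 1 := card_insert_le _ _
      have e2 := card_insert_le x.cls U
      omega)
  have h4 := diff_le_of_compat hP0 (delC_nonneg hδ) (by omega) hc
  rw [← hset] at h4
  have h5 : δh * (P : ℝ) ^ M + delC P M δh * (P : ℝ) ^ M ≤ δl := by
    refine le_trans ?_ hδl
    rw [delC]
    have hP2 : (2 : ℝ) ≤ P := by exact_mod_cast hP
    have a1 : (2 : ℝ) ^ (M + 1) ≤ (P : ℝ) ^ (M + 1) := pow_le_pow_left₀ two_pos.le hP2 _
    have a2 : (P : ℝ) ^ M ≤ (P : ℝ) ^ (4 * M) := pow_le_pow_right₀ (by linarith) (by omega)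
    have a3 : (P : ℝ) ^ (M + 1) * (P : ℝ) ^ M * (P : ℝ) ^ M ≤ (P : ℝ) ^ (4 * M) := by
      rw [← pow_add, ← pow_add]; exact pow_le_pow_right₀ (by linarith) (by omega)
    have a4 : (2 : ℝ) ^ (M + 1) * (P : ℝ) ^ M * (P : ℝ) ^ M ≤ (P : ℝ) ^ (4 * M) :=
      le_trans (by gcongr) a3
    have a5 : 2 * (P : ℝ) ^ (4 * M) ≤ (P : ℝ) ^ (6 * M) :=
      calc 2 * (P : ℝ) ^ (4 * M) ≤ (P : ℝ) ^ (2 * M) * (P : ℝ) ^ (4 * M) :=
            mul_le_mul_of_nonneg_right (hP2.trans (le_self_pow₀ (by linarith) (by omega)))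
              (by positivity)
        _ = _ := by rw [← pow_add]; ring_nf
    nlinarith [mul_le_mul_of_nonneg_left a2 hδ, mul_le_mul_of_nonneg_left a4 hδ,
      mul_le_mul_of_nonneg_left a5 hδ]
  have h6 : (0 : ℝ) ≤ (cyl (P := P) W).card := Nat.cast_nonneg _
  have h7 := mul_le_mul_of_nonneg_left h3 hδ
  have h8 := mul_le_mul_of_nonneg_right h5 h6
  unfold Near at h ⊢
  linarith

theorem div_bound {θ θl ρ5 Z : ℝ} (hθl : 0 < θl) (h5 : 0 < ρ5) (h51 : ρ5 ≤ 1)
    (hle : θl ≤ ρ5 * θ) (hZ : ρ5 ≤ Z) {c : ℕ} (hc : 0 < c) :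
    (1 / θ) ^ c / Z ≤ (1 / θl) ^ c := by
  have hθ : 0 < θ := pos_of_mul_pos_right (hθl.trans_le hle) h5.le
  calc (1 / θ) ^ c / Z ≤ (1 / θ) ^ c / ρ5 ^ c :=
        div_le_div_of_nonneg_left (by positivity) (by positivity)
          ((pow_le_of_le_one h5.le h51 hc.ne').trans hZ)
    _ = (1 / (ρ5 * θ)) ^ c := by rw [← div_pow, div_div, mul_comm]
    _ ≤ (1 / θl) ^ c := pow_le_pow_left₀ (by positivity) (one_div_le_one_div_of_le hθl hle) _

/-- What a forcing point supplies: a measure on tuples of the forced point. -/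
theorem sender {T : Fin Q → Fin Q → Prop} (hT : ∀ i j, T i j → ¬ T j i) (hP : 2 ≤ P)
    {M : ℕ} {δh δl θ θl ρ1 ρg ρ5 : ℝ} (hn : 2 * n + 2 ≤ M) (hδ : 0 ≤ δh)
    (hδl : δh * (P : ℝ) ^ (6 * M) ≤ δl) (hθ : 0 < θ) (h1 : 0 ≤ ρ1) (h5 : 0 < ρ5)
    (h5le : ρ5 ≤ ρ1 * ρg) (h51 : ρ5 ≤ 1) (hθl : 0 < θl) (hle : θl ≤ ρ5 * θ)
    {f : Omega Q P → V} {x y : Pt Q P V} (hy : ∀ F ∈ y.L, ∀ a ∈ F, T y.cls a)
    {μ : (Fin n → Fin Q) → ℝ} (hμ : Spread θ μ)
    (hμf : ∀ a, μ a ≠ 0 → Near f x.phi δh (insert x.cls (img a))) {I : Finset (Fin n)}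
    (hg : ρg ≤ ∑ a ∈ univ.filter (fun a => GamI T (delC P M δh) M θ ρ1 x y I a), μ a) :
    ∃ m : (Fin n → Fin Q) × (Fin n → Fin Q) → ℝ, (∀ s, 0 ≤ m s) ∧ ∑ s, m s = 1 ∧
      (∀ (J : Finset (Fin n ⊕ {p : Fin n // p ∉ I})) (v : Fin n ⊕ {p : Fin n // p ∉ I} → Fin Q),
        ∑ s ∈ univ.filter (fun s => ∀ p ∈ J, pairTup I s p = v p), m s ≤
        min ((1 / θl) ^ J.card) ((1 / θ) ^ J.card / ρ5)) ∧
      ∀ s, m s ≠ 0 → Free y.L (insert x.cls (univ.image (pairTup I s))) ∧
        Near f y.phi δl (insert y.cls (insert x.cls (univ.image (pairTup I s)))) := by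
  set ν : (Fin n → Fin Q) → (Fin n → Fin Q) → ℝ := fun a =>
    if h : GamI T (delC P M δh) M θ ρ1 x y I a then h.2.choose else 0 with hνdef
  have hν : ∀ a, Spread θ (ν a) := fun a => by
    by_cases h : GamI T (delC P M δh) M θ ρ1 x y I a
    · simp only [hνdef, dif_pos h]; exact h.2.choose_spec.1
    · simp only [hνdef, dif_neg h]; exact spread_zero hθ
  set G : (Fin n → Fin Q) → (Fin n → Fin Q) → Prop := fun a c =>
    GamI T (delC P M δh) M θ ρ1 x y I a ∧ Link (delC P M δh) M x y I a c with hG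
  set m0 := pairMass θ I μ ν G with hm0
  set Z := ∑ s, m0 s with hZdef
  have hZ : ρ5 ≤ Z := by
    refine h5le.trans (le_trans (mul_le_mul_of_nonneg_left hg h1) ?_)
    rw [hZdef, Fintype.sum_prod_type, mul_sum, sum_filter]
    refine sum_le_sum fun a _ => ?_
    split_ifs with ha
    · obtain ⟨-, hspec⟩ := ha.2.choose_spec
      have : ∑ c, m0 (a, c) = μ a * (θ ^ I.card * ∑ c ∈ univ.filter
          (fun c => Link (delC P M δh) M x y I a c), ha.2.choose c) := by
        simp only [hm0, pairMass, hG, ha, true_and]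
        rw [← sum_filter, ← mul_sum, ← mul_sum]
        simp [hνdef, dif_pos ha]
      rw [this, mul_comm]
      exact mul_le_mul_of_nonneg_left hspec (hμ.1 a)
    · exact sum_nonneg fun c _ => pairMass_nonneg hθ.le hμ hν _
  have hZ0 : 0 < Z := h5.trans_le hZ
  refine ⟨fun s => m0 s / Z, fun s => div_nonneg (pairMass_nonneg hθ.le hμ hν s) hZ0.le, ?_,
    fun J v => ?_, fun s hs => ?_⟩
  · rw [← sum_div, div_self hZ0.ne']
  · rw [← sum_div]
    have hp := pairMass_proj hθ hμ hν (G := G) (fun a c h => h.2.1) J v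
    have hb : (∑ s ∈ univ.filter (fun s => ∀ p ∈ J, pairTup I s p = v p), m0 s) / Z ≤
        (1 / θ) ^ J.card / ρ5 := div_le_div₀ (by positivity) hp h5 hZ
    refine le_min ?_ hb
    rcases Nat.eq_zero_or_pos J.card with hJ | hJ
    · rw [hJ, pow_zero, div_le_one hZ0]
      exact sum_le_sum_of_subset_of_nonneg (subset_univ _)
        (fun s _ _ => pairMass_nonneg hθ.le hμ hν s)
    · exact ((div_le_div_iff_of_pos_right hZ0).2 hp).trans (div_bound hθl h5 h51 hle hZ hJ)
  · simp only [hm0, pairMass, ne_eq, div_eq_zero_iff, hZ0.ne', or_false] at hs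
    split_ifs at hs with hgs
    · obtain ⟨⟨hor, -⟩, hI, hfree, hc⟩ := hgs
      have hμ0 : μ s.1 ≠ 0 := by
        intro h; exact hs (by rw [h, zero_mul])
      rw [image_pairTup I s hI]
      refine ⟨fun F hF hsub => hfree F hF fun i hi => ?_, ?_⟩
      · rcases mem_insert.1 (hsub hi) with he | h
        · exfalso
          have hTi := hy F hF i hi
          rw [he] at hTi
          rcases hor with he' | hor'
          · rw [he'] at hTi; exact hT _ _ hTi hTi
          · exact hT _ _ hTi hor'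
        · exact h
      · refine near_forced hP hδ hδl (by omega) ?_ subset_union_left (hμf _ hμ0) hc
        have := card_union_img_le s.1 s.2
        omega
    · exact absurd rfl hs

variable {R l : ℕ} {θ δ : ℕ → ℝ} {f : Omega Q P → V}

theorem lev_same (hl : l + 1 ≤ R) (hn : n ≤ depth R (l + 1)) {x y : Pt Q P V}
    (hcl : x.cls = y.cls) {I : Finset (Fin n)} {m : (Fin n → Fin Q) × (Fin n → Fin Q) → ℝ}
    {θh ρ5 : ℝ}
    (hm0 : ∀ s, 0 ≤ m s) (hm1 : ∑ s, m s = 1)
    (hmsp : ∀ (J : Finset (Fin n ⊕ {p : Fin n // p ∉ I})) (v : Fin n ⊕ {p : Fin n // p ∉ I} → Fin Q),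
      ∑ s ∈ univ.filter (fun s => ∀ p ∈ J, pairTup I s p = v p), m s ≤
      min ((1 / θ l) ^ J.card) ((1 / θh) ^ J.card / ρ5))
    (hms : ∀ s, m s ≠ 0 → Free y.L (insert x.cls (univ.image (pairTup I s))) ∧
      Near f y.phi (δ l) (insert y.cls (insert x.cls (univ.image (pairTup I s))))) :
    Lev R θ δ l f y := by
  have hc : Fintype.card (Fin n ⊕ {p : Fin n // p ∉ I}) ≤ depth R l := by
    have := Fintype.card_subtype_le (fun p : Fin n => p ∉ I)
    simp only [Fintype.card_sum, Fintype.card_fin] at this ⊢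
    rw [depth_succ hl]; omega
  refine lev_of_measure hc (pairTup I) m hm0 hm1 (fun J v => ?_) fun s hs => ?_
  · refine le_trans (le_of_eq (sum_congr ?_ fun _ _ => rfl)) ((hmsp J v).trans (min_le_left _ _))
    ext s; simp
  obtain ⟨h1, h2⟩ := hms s hs
  rw [hcl] at h1 h2
  rw [insert_idem] at h2
  exact ⟨fun F hF hsub => h1 F hF (hsub.trans (subset_insert _ _)), h2⟩

theorem lev_many (hl : l + 1 ≤ R) (hn : n ≤ depth R (l + 1)) {β : Type} [Fintype β] [Nonempty β]
    (c : β → Fin Q) (hc : Function.Injective c) {y : Pt Q P V} {I : Finset (Fin n)}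
    {m : β → (Fin n → Fin Q) × (Fin n → Fin Q) → ℝ} {θh ρ5 : ℝ} (hθl : 0 < θ l)
    (hh : θ l ≤ θh) (hN : θ l ≤ ρ5 * Fintype.card β) (h5 : 0 < ρ5) (h51 : ρ5 ≤ 1)
    (hm0 : ∀ i s, 0 ≤ m i s) (hm1 : ∀ i, ∑ s, m i s = 1)
    (hmsp : ∀ i (J : Finset (Fin n ⊕ {p : Fin n // p ∉ I})) (v : Fin n ⊕ {p : Fin n // p ∉ I} → Fin Q),
      ∑ s ∈ univ.filter (fun s => ∀ p ∈ J, pairTup I s p = v p), m i s ≤
      min ((1 / θ l) ^ J.card) ((1 / θh) ^ J.card / ρ5))
    (hms : ∀ i s, m i s ≠ 0 → Free y.L (insert (c i) (univ.image (pairTup I s))) ∧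
      Near f y.phi (δ l) (insert y.cls (insert (c i) (univ.image (pairTup I s))))) :
    Lev R θ δ l f y := by
  have hcd : Fintype.card (Unit ⊕ (Fin n ⊕ {p : Fin n // p ∉ I})) ≤ depth R l := by
    have := Fintype.card_subtype_le (fun p : Fin n => p ∉ I)
    simp only [Fintype.card_sum, Fintype.card_fin, Fintype.card_unit] at this ⊢
    rw [depth_succ hl]; omega
  set N := (Fintype.card β : ℝ) with hNdef
  have hN0 : (0 : ℝ) < N := by rw [hNdef]; exact_mod_cast Fintype.card_pos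
  refine lev_of_measure hcd
    (fun s : β × ((Fin n → Fin Q) × (Fin n → Fin Q)) =>
      Sum.elim (fun _ => c s.1) (pairTup I s.2))
    (fun s => m s.1 s.2 / N) (fun s => div_nonneg (hm0 _ _) hN0.le) ?_ (fun J v => ?_)
    fun s hs => ?_
  · rw [← sum_div, Fintype.sum_prod_type]
    simp only [hm1, sum_const, card_univ, nsmul_eq_mul, mul_one]
    rw [div_self hN0.ne']
  · rw [← sum_div, div_le_iff₀ hN0]
    set JR := J.toRight
    set w : Fin n ⊕ {p : Fin n // p ∉ I} → Fin Q := fun p => v (Sum.inr p)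
    set ok : Finset β := univ.filter fun i => Sum.inl () ∈ J → c i = v (Sum.inl ())
    have hcomp : ∑ s ∈ univ.filter (fun s : β × ((Fin n → Fin Q) × (Fin n → Fin Q)) =>
        ∀ p ∈ J, Sum.elim (fun _ => c s.1) (pairTup I s.2) p = v p), m s.1 s.2 ≤
          ∑ i ∈ ok, ∑ s ∈ univ.filter (fun s => ∀ p ∈ JR, pairTup I s p = w p), m i s := by
      rw [← sum_finset_product (univ.filter fun s : β × ((Fin n → Fin Q) × (Fin n → Fin Q)) =>
        s.1 ∈ ok ∧ ∀ p ∈ JR, pairTup I s.2 p = w p) ok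
        (fun i => univ.filter fun s => ∀ p ∈ JR, pairTup I s p = w p) (by intro s; simp)
        (f := fun s => m s.1 s.2)]
      refine sum_le_sum_of_subset_of_nonneg (fun s hs => ?_) (fun s _ _ => hm0 _ _)
      simp only [mem_filter, mem_univ, true_and] at hs ⊢
      exact ⟨by simp only [ok, mem_filter, mem_univ, true_and]; exact hs (Sum.inl ()),
        fun p hp => hs (Sum.inr p) (mem_toRight.1 hp)⟩
    refine le_trans (le_of_eq (sum_congr ?_ fun _ _ => rfl)) (hcomp.trans ?_)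
    · ext s; simp
    have hproj : ∀ i, ∑ s ∈ univ.filter (fun s => ∀ p ∈ JR, pairTup I s p = w p), m i s ≤
        min ((1 / θ l) ^ JR.card) ((1 / θh) ^ JR.card / ρ5) := fun i => by
      refine le_trans (le_of_eq (sum_congr ?_ fun _ _ => rfl)) (hmsp i JR w)
      ext s; simp
    have hJ := card_toLeft_add_card_toRight (u := J)
    by_cases hroot : Sum.inl () ∈ J
    · have hok : ok.card ≤ 1 := card_le_one.2 fun i hi j hj => hc (by
        simp only [ok, mem_filter, mem_univ, true_and] at hi hj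
        rw [hi hroot, hj hroot])
      have hL : J.toLeft.card = 1 := by
        refine le_antisymm ((card_le_univ _).trans (by simp)) ?_
        exact card_pos.2 ⟨(), mem_toLeft.2 hroot⟩
      calc ∑ i ∈ ok, ∑ s ∈ univ.filter (fun s => ∀ p ∈ JR, pairTup I s p = w p), m i s
          ≤ ∑ _i ∈ ok, (1 / θh) ^ JR.card / ρ5 :=
            sum_le_sum fun i _ => (hproj i).trans (min_le_right _ _)
        _ ≤ (1 / θh) ^ JR.card / ρ5 := by
            have : 0 ≤ (1 / θh) ^ JR.card / ρ5 := by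
              have : 0 < θh := hθl.trans_le hh
              positivity
            simp only [sum_const, nsmul_eq_mul]
            exact mul_le_of_le_one_left this (by exact_mod_cast hok)
        _ ≤ (1 / θ l) ^ JR.card / ρ5 := by
            gcongr
            · exact one_div_nonneg.2 (hθl.trans_le hh).le
        _ ≤ (1 / θ l) ^ J.card * N := by
            rw [← hJ, hL, pow_add, pow_one, div_le_iff₀ h5]
            have : 1 ≤ 1 / θ l * N * ρ5 := by
              rw [div_mul_eq_mul_div, one_mul, div_mul_eq_mul_div, le_div_iff₀ hθl]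
              linarith
            have h0 : 0 ≤ (1 / θ l) ^ JR.card := by positivity
            calc (1 / θ l) ^ J.toRight.card ≤ (1 / θ l * N * ρ5) * (1 / θ l) ^ J.toRight.card :=
                  le_mul_of_one_le_left h0 this
              _ = _ := by ring
    · have hL : J.toLeft.card = 0 := by
        rw [card_eq_zero, eq_empty_iff_forall_notMem]
        rintro ⟨⟩ h
        exact hroot (mem_toLeft.1 h)
      calc ∑ i ∈ ok, ∑ s ∈ univ.filter (fun s => ∀ p ∈ JR, pairTup I s p = w p), m i s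
          ≤ ∑ _i ∈ ok, (1 / θ l) ^ JR.card :=
            sum_le_sum fun i _ => (hproj i).trans (min_le_left _ _)
        _ ≤ (1 / θ l) ^ J.card * N := by
            rw [← hJ, hL, zero_add]
            simp only [sum_const, nsmul_eq_mul]
            rw [mul_comm]
            refine mul_le_mul_of_nonneg_left ?_ (by positivity)
            rw [hNdef]; exact_mod_cast card_le_univ ok
  · have hs0 : m s.1 s.2 ≠ 0 := fun h => hs (by rw [h, zero_div])
    have him : univ.image (Sum.elim (fun _ : Unit => c s.1) (pairTup I s.2)) =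
        insert (c s.1) (univ.image (pairTup I s.2)) := by
      ext i; simp [eq_comm]
    rw [him]
    exact hms _ _ hs0

end Vale.Agent.P126.Neg.Force
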