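import Vale.Agent.P126.Neg.Force.Keys
import Vale.Agent.P126.Neg.Force.Lift

/-! The pool is polynomial in `P`. -/

namespace Vale.Agent.P126.Neg.Force

open scoped Classical
open Finset

variable {Q P b : ℕ} {V : Type}

theorem card_edges {S : ℝ} {M : ℕ} (hP : 0 < P) (hS : 0 ≤ S) {L : Finset (Finset (Fin Q))}
    (hL : DegOK P S M L) (hc : ∀ F ∈ L, F.card ≤ M) :
    ((L.biUnion id).card : ℝ) ≤ M * ((M + 1) * (S * (P : ℝ) ^ M)) := by
  have h1 : (L.biUnion id).card ≤ L.card * M := card_biUnion_le_card_mul _ _ _ hc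
  have h2 : (L.card : ℝ) ≤ (M + 1) * (S * (P : ℝ) ^ M) := by
    have hsub : L ⊆ (range (M + 1)).biUnion fun r => L.filter fun F => F.card = r ∧ ∅ ⊆ F :=
      fun F hF => mem_biUnion.2 ⟨F.card, mem_range.2 (Nat.lt_succ_of_le (hc F hF)),
        mem_filter.2 ⟨hF, rfl, empty_subset _⟩⟩
    refine ((Nat.cast_le (α := ℝ)).2 ((card_le_card hsub).trans card_biUnion_le)).trans ?_
    push_cast
    refine (sum_le_sum (g := fun _ => S * (P : ℝ) ^ M) fun r hr => ?_).trans ?_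
    · refine (hL ∅ r (Nat.le_of_lt_succ (mem_range.1 hr)) (by simp)).trans ?_
      refine mul_le_mul_of_nonneg_left (pow_le_pow_right₀ ?_ ?_) hS
      · exact_mod_cast hP
      · have := Nat.le_of_lt_succ (mem_range.1 hr)
        omega
    · simp
  calc ((L.biUnion id).card : ℝ) ≤ (L.card : ℝ) * M := by exact_mod_cast h1
    _ ≤ (M + 1) * (S * (P : ℝ) ^ M) * M := mul_le_mul_of_nonneg_right h2 (Nat.cast_nonneg M)
    _ = _ := by ring

theorem pool_card (hMin : MinDenseStmt) {M D : ℕ} {δh S z : ℝ} (hP : 2 ≤ P) (hδ : 0 < δh)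
    (hδP : 1 / (P : ℝ) ^ D ≤ δh) (hS0 : 0 ≤ S) (hS : S ≤ z) (hzP : z ≤ (P : ℝ))
    (hMz : (M : ℝ) * (M + 1) ≤ (P : ℝ)) (hb : (b : ℝ) ≤ P) {x : Fin b → Pt Q P V}
    (hx : ∀ k, DegOK P S M (x k).L ∧ ∀ F ∈ (x k).L, F.card ≤ M) :
    ((pool (delC P M δh) M x).card : ℝ) ≤ (P : ℝ) ^ ((M + 2 * D) * M + M + 4) := by
  have hP0 : 0 < P := by omega
  have hP1 : (1 : ℝ) ≤ P := by exact_mod_cast hP0
  have hP2 : (2 : ℝ) ≤ P := by exact_mod_cast hP
  set δ' := delC P M δh with hδ'def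
  have hδ' : 0 < δ' := by rw [hδ'def, delC]; positivity
  set g := min 1 (δ' / 2 ^ M) with hg
  have hg0 : 0 < g := lt_min one_pos (by positivity)
  have hgD : 1 / (P : ℝ) ^ D ≤ g := by
    refine le_min ((div_le_one (by positivity)).2 (one_le_pow₀ hP1)) (hδP.trans ?_)
    have : δ' / 2 ^ M = 2 * δh * (P : ℝ) ^ M := by rw [hδ'def, delC, pow_succ]; field_simp
    rw [this]
    nlinarith [one_le_pow₀ (n := M) hP1]
  set S' := ((2 : ℝ) ^ M / g ^ 2) ^ M with hS'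
  have hS'0 : 0 ≤ S' := by positivity
  have hS'le : S' ≤ (P : ℝ) ^ ((M + 2 * D) * M) := by
    rw [hS', pow_mul]
    refine pow_le_pow_left₀ (by positivity) ?_ _
    rw [pow_add, pow_mul', div_eq_mul_inv]
    refine mul_le_mul (pow_le_pow_left₀ zero_le_two hP2 M) ?_ (by positivity) (by positivity)
    rw [← inv_pow]
    refine pow_le_pow_left₀ (by positivity) ?_ _
    rw [inv_le_comm₀ hg0 (by positivity), ← one_div]
    exact hgD
  have hcm : ∀ j k, (((compatMin δ' M (x j) (x k)).biUnion id).card : ℝ) ≤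
      M * ((M + 1) * (S' * (P : ℝ) ^ M)) := fun j k => by
    refine card_edges hP0 hS'0 (hMin Q P M hP0 _ _ _ g hg0 (min_le_left _ _) fun t t' htt ht' => ?_)
      fun F hF => ?_
    · have e1 : δ' / 2 ^ M ≤ δ' / 2 ^ t' :=
        div_le_div_of_nonneg_left hδ'.le (by positivity) (pow_le_pow_right₀ one_le_two ht')
      have e2 : 2 * (δ' / 2 ^ t') ≤ δ' / 2 ^ t := by
        have h2 : (2 : ℝ) ^ (t + 1) ≤ 2 ^ t' := pow_le_pow_right₀ one_le_two htt
        have h3 : δ' / 2 ^ t' ≤ δ' / 2 ^ (t + 1) :=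
          div_le_div_of_nonneg_left hδ'.le (by positivity) h2
        rw [pow_succ] at h3
        calc 2 * (δ' / 2 ^ t') ≤ 2 * (δ' / (2 ^ t * 2)) := by linarith
          _ = δ' / 2 ^ t := by ring
      have := min_le_right 1 (δ' / 2 ^ M)
      simp only [thr]
      linarith
    · simp only [compatMin, minDense, mem_filter] at hF
      exact hF.2.1
  have h1 : ((pool δ' M x).card : ℝ) ≤ (b : ℝ) * (M * ((M + 1) * (S * (P : ℝ) ^ M))) +
      (b : ℝ) * ((b : ℝ) * (M * ((M + 1) * (S' * (P : ℝ) ^ M)))) := by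
    refine ((Nat.cast_le (α := ℝ)).2 ((card_union_le _ _).trans (add_le_add card_biUnion_le
      (card_biUnion_le.trans (sum_le_sum fun j _ => card_biUnion_le))))).trans ?_
    push_cast
    refine add_le_add ((sum_le_sum fun k _ => card_edges hP0 hS0 (hx k).1 (hx k).2).trans ?_)
      ((sum_le_sum fun j _ => sum_le_sum fun k _ => hcm j k).trans ?_) <;> simp
  refine h1.trans ?_
  set X := (M + 2 * D) * M
  have e1 : (b : ℝ) * (M * ((M + 1) * (S * (P : ℝ) ^ M))) ≤ (P : ℝ) ^ (X + M + 3) := by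
    calc (b : ℝ) * (M * ((M + 1) * (S * (P : ℝ) ^ M)))
        = (b : ℝ) * ((M : ℝ) * (M + 1)) * S * (P : ℝ) ^ M := by ring
      _ ≤ (P : ℝ) * P * P * (P : ℝ) ^ M := by gcongr; exact hS.trans hzP
      _ = (P : ℝ) ^ (M + 3) := by ring
      _ ≤ _ := pow_le_pow_right₀ hP1 (by omega)
  have e2 : (b : ℝ) * ((b : ℝ) * (M * ((M + 1) * (S' * (P : ℝ) ^ M)))) ≤
      (P : ℝ) ^ (X + M + 3) := by
    calc (b : ℝ) * ((b : ℝ) * (M * ((M + 1) * (S' * (P : ℝ) ^ M))))
        = (b : ℝ) * b * ((M : ℝ) * (M + 1)) * S' * (P : ℝ) ^ M := by ring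
      _ ≤ (P : ℝ) * P * P * (P : ℝ) ^ X * (P : ℝ) ^ M := by gcongr
      _ = _ := by ring
  calc _ ≤ 2 * (P : ℝ) ^ (X + M + 3) := by linarith
    _ ≤ (P : ℝ) * (P : ℝ) ^ (X + M + 3) := by gcongr
    _ = _ := by ring

end Vale.Agent.P126.Neg.Force
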