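import Vale.Agent.P126.Neg.Force.BlockMain
import Vale.Agent.P126.Neg.Force.Pool

/-! The sample is cut into blocks by the multiplicity of the classes. -/

namespace Vale.Agent.P126.Neg.Force

open scoped Classical
open Finset

variable {Q P d : ℕ} {V : Type}

/-- A part of the sample, listed. -/
noncomputable def part (x : Fin d → Pt Q P V) (A : Finset (Fin d)) : Fin A.card → Pt Q P V :=
  fun i => x (A.equivFin.symm i)

/-- The embedding of a part in the sample. -/
noncomputable def partEmb (A : Finset (Fin d)) : Fin A.card ↪ Fin d :=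
  A.equivFin.symm.toEmbedding.trans (Function.Embedding.subtype _)

theorem cast_pow_le_exp (z k : ℕ) : ((z : ℝ)) ^ k ≤ Real.exp ((k : ℝ) * z) := by
  rw [Real.exp_nat_mul]
  exact pow_le_pow_left₀ (Nat.cast_nonneg _) (by linarith [Real.add_one_le_exp (z : ℝ)]) _

theorem card_filter_part {p : Fin d → Prop} {A : Finset (Fin d)} :
    (univ.filter fun i : Fin A.card => p (partEmb A i)).card = (A.filter p).card := by
  rw [← card_map (partEmb A)]
  congr 1
  ext i
  simp only [mem_map, mem_filter, mem_univ, true_and, partEmb, Function.Embedding.trans_apply,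
    Equiv.coe_toEmbedding, Function.Embedding.subtype_apply]
  refine ⟨?_, fun ⟨hi, hp⟩ => ⟨A.equivFin ⟨i, hi⟩, by simpa using hp, by simp⟩⟩
  rintro ⟨j, hp, rfl⟩
  exact ⟨(A.equivFin.symm j).2, hp⟩

theorem sep_blocks {β : Type} [Fintype β] [DecidableEq β] (A : β → Finset (Fin d))
    (hA : ∀ i, ∃! t, i ∈ A t) (fam : ∀ t, Finset (Finset (Fin (A t).card))) (err : β → ℝ)
    (hi lo : (Fin d → Prop)) (h : ∀ t, ∃ U ∈ fam t,
      ((univ.filter fun i => hi (partEmb (A t) i) ∧ i ∉ U).card : ℝ) +
        ((univ.filter fun i => i ∈ U ∧ ¬ lo (partEmb (A t) i)).card : ℝ) ≤ err t) :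
    ∃ U ∈ (Fintype.piFinset fam).image (fun g => univ.biUnion fun t => (g t).map (partEmb (A t))),
      ((univ.filter fun i => hi i ∧ i ∉ U).card : ℝ) +
        ((univ.filter fun i => i ∈ U ∧ ¬ lo i).card : ℝ) ≤ ∑ t, err t := by
  choose g hg hle using h
  refine ⟨_, mem_image.2 ⟨g, Fintype.mem_piFinset.2 hg, rfl⟩, ?_⟩
  set U := univ.biUnion fun t => (g t).map (partEmb (A t)) with hU
  have e1 : (univ.filter fun i => hi i ∧ i ∉ U) ⊆ univ.biUnion fun t =>
      (univ.filter fun i => hi (partEmb (A t) i) ∧ i ∉ g t).map (partEmb (A t)) := by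
    intro i hI
    simp only [mem_filter, mem_univ, true_and, hU, mem_biUnion, mem_map, not_exists, not_and]
      at hI ⊢
    obtain ⟨t, ht, -⟩ := hA i
    refine ⟨t, (A t).equivFin ⟨i, ht⟩, ⟨by simpa [partEmb] using hI.1, fun hm => ?_⟩,
      by simp [partEmb]⟩
    exact hI.2 t _ hm (by simp [partEmb])
  have e2 : (univ.filter fun i => i ∈ U ∧ ¬ lo i) ⊆ univ.biUnion fun t =>
      (univ.filter fun i => i ∈ g t ∧ ¬ lo (partEmb (A t) i)).map (partEmb (A t)) := by
    intro i hI
    simp only [mem_filter, mem_univ, true_and, hU, mem_biUnion, mem_map] at hI ⊢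
    obtain ⟨⟨t, j, hj, rfl⟩, hlo⟩ := hI
    exact ⟨t, j, ⟨hj, hlo⟩, rfl⟩
  have c1 := (Nat.cast_le (α := ℝ)).2 ((card_le_card e1).trans card_biUnion_le)
  have c2 := (Nat.cast_le (α := ℝ)).2 ((card_le_card e2).trans card_biUnion_le)
  simp only [card_map] at c1 c2
  push_cast at c1 c2
  refine (add_le_add c1 c2).trans ?_
  rw [← sum_add_distrib]
  exact sum_le_sum fun t _ => hle t

/-- The common class of a big block, or the rest. -/
noncomputable def blockSet (x : Fin d → Pt Q P V) (μ0 : ℕ) :
    Option {c : Fin Q // μ0 < (univ.filter fun k => (x k).cls = c).card} → Finset (Fin d)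
  | none => univ.filter fun i => (univ.filter fun k => (x k).cls = (x i).cls).card ≤ μ0
  | some c => univ.filter fun i => (x i).cls = c.1

theorem blockSet_part (x : Fin d → Pt Q P V) (μ0 : ℕ) (i : Fin d) :
    ∃! t, i ∈ blockSet x μ0 t := by
  by_cases hi : (univ.filter fun k => (x k).cls = (x i).cls).card ≤ μ0
  · refine ⟨none, by simp [blockSet, hi], fun t ht => ?_⟩
    rcases t with - | ⟨c, hc⟩
    · rfl
    · simp only [blockSet, mem_filter, mem_univ, true_and] at ht
      rw [ht] at hi; omega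
  · refine ⟨some ⟨(x i).cls, not_le.1 hi⟩, by simp [blockSet], fun t ht => ?_⟩
    rcases t with - | ⟨c, hc⟩
    · simp [blockSet, hi] at ht
    · simp only [blockSet, mem_filter, mem_univ, true_and] at ht
      subst ht; rfl

theorem blockSet_count (x : Fin d → Pt Q P V) (μ0 : ℕ) :
    (Fintype.card (Option {c : Fin Q // μ0 < (univ.filter fun k => (x k).cls = c).card}) - 1) *
      μ0 ≤ d := by
  rw [Fintype.card_option, Nat.add_sub_cancel, Fintype.card_subtype]
  set C := univ.filter fun c => μ0 < (univ.filter fun k => (x k).cls = c).card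
  calc C.card * μ0 = ∑ _c ∈ C, μ0 := by rw [sum_const, smul_eq_mul]
    _ ≤ ∑ c ∈ C, (univ.filter fun k => (x k).cls = c).card :=
        sum_le_sum fun c hc => (mem_filter.1 hc).2.le
    _ ≤ ∑ c, (univ.filter fun k => (x k).cls = c).card :=
        sum_le_sum_of_subset (subset_univ C)
    _ = d := by rw [← card_eq_sum_card_fiberwise fun k _ => mem_univ _]; simp

end Vale.Agent.P126.Neg.Force
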