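import Vale.Agent.P126.Neg.Force.Main

/-! The approximation statement for consecutive levels. -/

namespace Vale.Agent.P126.Neg.Force

open scoped Classical
open Finset

theorem total_error {β : Type} [Fintype β] [DecidableEq β] {d : ℕ} {k M : ℕ} (hk : 0 < k) (n0 : β)
    (A : β → Finset (Fin d)) (hA : ∀ i, ∃! t, i ∈ A t) :
    ∑ t, (3 * ((M : ℝ) + 1) * (1 / ((8 * k * (M + 1) : ℕ) : ℝ)) * (A t).card +
      if t = n0 then (d : ℝ) / ((8 * k * (M + 1) : ℕ) : ℝ) else 0) ≤ (d : ℝ) / k := by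
  have hsum : ∑ t, ((A t).card : ℝ) = d := by
    rw [← Nat.cast_sum, ← card_biUnion]
    · have : univ.biUnion A = univ := eq_univ_iff_forall.2 fun i =>
        mem_biUnion.2 ⟨_, mem_univ _, (hA i).choose_spec.1⟩
      rw [this, card_univ, Fintype.card_fin]
    · intro t _ t' _ hne
      rw [Function.onFun, Finset.disjoint_left]
      intro i hi hi'
      obtain ⟨t0, -, hu⟩ := hA i
      exact hne ((hu t hi).trans (hu t' hi').symm)
  rw [sum_add_distrib, ← mul_sum, hsum, sum_ite_eq' univ n0, if_pos (mem_univ _)]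
  push_cast
  have hkR : (1 : ℝ) ≤ k := by exact_mod_cast hk
  calc 3 * ((M : ℝ) + 1) * (1 / (8 * (k : ℝ) * ((M : ℝ) + 1))) * d +
        (d : ℝ) / (8 * (k : ℝ) * ((M : ℝ) + 1))
      = (d : ℝ) / k * (3 / 8 + 1 / (8 * ((M : ℝ) + 1))) := by field_simp
    _ ≤ (d : ℝ) / k * 1 := by
        refine mul_le_mul_of_nonneg_left ?_ (by positivity)
        have : 1 / (8 * ((M : ℝ) + 1)) ≤ 1 / 8 := by
          apply div_le_div_of_nonneg_left zero_le_one (by norm_num)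
          have : (0 : ℝ) ≤ M := Nat.cast_nonneg _
          linarith
        linarith
    _ = _ := mul_one _

theorem approx_core (hSample : SampleStmt) (hMin : MinDenseStmt) {R k l e C E z N Q P d : ℕ}
    (M : ℕ) (hM : M = 2 ^ R) (hk : 0 < k) (hl : l + 1 ≤ R) (hC : 1 ≤ C)
    (hdom : ∀ (Q P n b : ℕ) (V : Type) (T : Fin Q → Fin Q → Prop) (θ ω S ρ1 δh : ℝ)
      (f : Omega Q P → V) (x : Fin b → Pt Q P V) (H : Finset (Fin b))
      (μ : Fin b → (Fin n → Fin Q) → ℝ),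
      0 < P → 0 < θ → 2 * n + 2 ≤ M → 1 ≤ ω → (P : ℝ) ≤ ω * θ → 1 ≤ S → 0 ≤ δh → 0 ≤ ρ1 →
      (∀ i j, i ≠ j → T i j ∨ T j i) →
      (∀ k, DegOK P S M (x k).L ∧ ∀ F ∈ (x k).L, F.card ≤ M) →
      (∀ j ∈ H, Spread θ (μ j) ∧ ∑ a, μ j a = 1 ∧ ∀ a, μ j a ≠ 0 →
        Free (x j).L (img a) ∧ Near f (x j).phi δh (insert (x j).cls (img a))) →
      (1 / ((C : ℝ) * S * ω) ^ E - ρ1) * (H.card : ℝ) ^ 2 ≤
        2 * ∑ j ∈ H, ∑ k ∈ H, gMass T (delC P M δh) M θ ρ1 (x j) (x k) (μ j))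
    (a c : ℕ) (ha : (e + 2) * E ≤ a) (hc : c = (M + 2 * (6 * M * R)) * M + M + 4 + 1)
    (hN : 5 * a + 20 + e + c + 1 ≤ N) (hNz : N ≤ z) (hKz : 8 * (8 * k * (M + 1)) ^ 2 ≤ z)
    (hMz : 2 ^ M ≤ z) (hCz : C ≤ z) (hM2 : M * (M + 1) + M + 2 ≤ z)
    (hEz : ((c * M + 1) + 1) * (M + 1) + 1 ≤ z) (hPN : P = z ^ N) (hd : d = z ^ (N - 1))
    (hQ : z ^ ((5 * a + 20 + e + c + 1) * N) ≤ Q)
    {T : Fin Q → Fin Q → Prop} {V : Type} {S : ℝ} {x : Fin d → Pt Q P V} {θ δ : ℕ → ℝ}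
    (hT : ∀ i j, T i j → ¬ T j i) (hT' : ∀ i j, i ≠ j → T i j ∨ T j i)
    (hS1 : 1 ≤ S) (hSz : S ≤ z) (hx : ∀ i, PtOK T S M (x i))
    (hθh : (P : ℝ) / (z : ℝ) ^ e ≤ θ (l + 1)) (hθl : 0 < θ l)
    (hθl' : θ l ≤ (P : ℝ) / (z : ℝ) ^ (5 * a + 20 + e + c + 1))
    (hδ : 1 / (P : ℝ) ^ (6 * M * R) ≤ δ (l + 1))
    (hδl : δ (l + 1) * (P : ℝ) ^ (6 * M) ≤ δ l) :
    ∃ fam : Finset (Finset (Fin d)), (fam.card : ℝ) ≤ Real.exp ((d : ℝ) / z) ∧
      ∀ f : Omega Q P → V, ∃ U ∈ fam,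
        ((univ.filter fun i => Lev R θ δ (l + 1) f (x i) ∧ i ∉ U).card : ℝ) +
          ((univ.filter fun i => i ∈ U ∧ ¬ Lev R θ δ l f (x i)).card : ℝ) ≤ (d : ℝ) / k := by
  have hz2 : 2 ≤ z := by omega
  have hK0 : 1 ≤ 8 * k * (M + 1) := Nat.one_le_iff_ne_zero.2 (by positivity)
  have hPd : P = z * d := by
    rw [hPN, hd, ← pow_succ']; congr 1; omega
  have hP2 : 2 ≤ P := hPN ▸ hz2.trans (Nat.le_self_pow (by omega) z)
  have hzP : z ≤ P := hPN ▸ Nat.le_self_pow (by omega) z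
  have hdP : d ≤ P := by rw [hPN, hd]; exact Nat.pow_le_pow_right (by omega) (by omega)
  have hδ0 : 0 < δ (l + 1) := by
    have : (0 : ℝ) < P := by exact_mod_cast (by omega : 0 < P)
    exact lt_of_lt_of_le (by positivity) hδ
  have hpool := pool_card hMin hP2 hδ0 hδ (by linarith : (0 : ℝ) ≤ S) hSz
    (by exact_mod_cast hzP) (by exact_mod_cast (by omega : M * (M + 1) ≤ P))
    (by exact_mod_cast hdP) (fun i => ⟨(hx i).1, fun F hF => ((hx i).2 F hF).2.1⟩)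
  have hPc : ((pool (delC P M (δ (l + 1))) M x).card : ℝ) + M + 1 ≤ (P : ℝ) ^ c := by
    rw [hc, pow_succ]
    have h1 : (1 : ℝ) ≤ (P : ℝ) ^ ((M + 2 * (6 * M * R)) * M + M + 4) :=
      one_le_pow₀ (by exact_mod_cast (by omega : 1 ≤ P))
    have h2 : (M : ℝ) + 2 ≤ P := by exact_mod_cast (by omega : M + 2 ≤ P)
    nlinarith
  have hroom : (pool (delC P M (δ (l + 1))) M x).card + M ≤ Q := by
    have h1 : ((pool (delC P M (δ (l + 1))) M x).card : ℝ) + M ≤ (P : ℝ) ^ c := by linarith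
    refine le_trans (by exact_mod_cast h1) (le_trans ?_ hQ)
    rw [hPN, ← pow_mul, mul_comm N c]
    exact Nat.pow_le_pow_right (by omega) (Nat.mul_le_mul_right N (by omega))
  obtain ⟨Ex, hExs, hExc⟩ := exists_subset_card_eq (s := (pool (delC P M (δ (l + 1))) M x)ᶜ)
    (n := M) (by rw [card_compl, Fintype.card_fin]; omega)
  have hEd : Disjoint Ex (pool (delC P M (δ (l + 1))) M x) :=
    Finset.disjoint_left.2 fun i hi => mem_compl.1 (hExs hi)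
  have hEcb : ((c * M + 1) * z ^ (2 * a + 4) + 1) * (M + 1) + 1 ≤ z * z ^ (2 * a + 4) := by
    have hr1 : 1 ≤ z ^ (2 * a + 4) := Nat.one_le_pow _ _ (by omega)
    calc ((c * M + 1) * z ^ (2 * a + 4) + 1) * (M + 1) + 1
        ≤ (((c * M + 1) + 1) * (M + 1) + 1) * z ^ (2 * a + 4) := by nlinarith
      _ ≤ _ := Nat.mul_le_mul_right _ hEz
  refine ⟨_, count_exp (x := x) hz2 hNz hPN hd (by omega) hEcb
    (fun t => famB T (delC P M (δ (l + 1))) M (θ (l + 1)) (1 / (z : ℝ) ^ (a + 1))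
      (1 / (z : ℝ) ^ (a + 1)) (part x (blockSet x (z ^ (2 * a + 9)) t)) (z ^ (2 * a + 4)) Ex ∪ {∅})
    (fun t => family_card_block T _ _ _ _ _ Ex hP2
      (((card_le_univ _).trans (by simp)).trans hdP) ?_), fun f => ?_⟩
  · have h1 : ((pool (delC P M (δ (l + 1))) M (part x (blockSet x (z ^ (2 * a + 9)) t)) ∪ Ex).card :
        ℝ) ≤ (pool (delC P M (δ (l + 1))) M x).card + (Ex.card : ℝ) := by
      exact_mod_cast (card_union_le _ _).trans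
        (Nat.add_le_add_right (card_le_card (pool_part _ M x _)) _)
    rw [hExc] at h1
    linarith
  · obtain ⟨U, hU, hle⟩ := sep_blocks _ (blockSet_part x (z ^ (2 * a + 9))) _ _
      (fun i => Lev R θ δ (l + 1) f (x i)) (fun i => Lev R θ δ l f (x i))
      (fun t => block_fact hSample hdom
        (cond_of_z hC hS1 hSz ha hK0 hKz hMz hCz) hM hl hP2 hPN hPd hz2 hK0 hKz hMz hS1 hT hT'
        hx hθh hθl hθl' (by omega) hδ0 hδl hEd hExc.ge f t)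
    refine ⟨U, hU, hle.trans ?_⟩
    convert total_error (M := M) hk none _ (blockSet_part x (z ^ (2 * a + 9))) using 4

/-- Few sets separate consecutive levels. -/
theorem approxStmt (hPairs : PairsStmt) (hSample : SampleStmt) (hMin : MinDenseStmt) :
    ApproxStmt := by
  intro R k l e hk hl
  obtain ⟨C, E, hC, hdom⟩ := gMass_lower hPairs (2 ^ R)
  refine ⟨5 * ((e + 2) * E) + 20 + e +
      ((2 ^ R + 2 * (6 * 2 ^ R * R)) * 2 ^ R + 2 ^ R + 4 + 1) + 1,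
    8 * (8 * k * (2 ^ R + 1)) ^ 2 + 2 ^ 2 ^ R + C + (2 ^ R * (2 ^ R + 1) + 2 ^ R + 2) +
      (((((2 ^ R + 2 * (6 * 2 ^ R * R)) * 2 ^ R + 2 ^ R + 4 + 1) * 2 ^ R + 1) + 1) *
        (2 ^ R + 1) + 1), ?_⟩
  intro z N Q hz hN hNz hQ T V S x θ δ hT hT' hS1 hSz hx hθh hθh' hθl hθl' hδ hδl
  have split5 : ∀ u v w p q : ℕ, u + v + w + p + q ≤ z →
      u ≤ z ∧ v ≤ z ∧ w ≤ z ∧ p ≤ z ∧ q ≤ z := by omega
  obtain ⟨hz1, hz2, hz3, hz4, hz5⟩ := split5 _ _ _ _ _ hz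
  have hPR : ((z ^ N : ℕ) : ℝ) = (z : ℝ) ^ N := Nat.cast_pow _ _
  rw [← hPR] at hθh hθl' hδ hδl
  rw [show (z : ℝ) ^ (N - 1) = ((z ^ (N - 1) : ℕ) : ℝ) from (Nat.cast_pow _ _).symm]
  exact approx_core hSample hMin (2 ^ R) rfl hk hl hC hdom ((e + 2) * E) _ le_rfl rfl hN hNz
    hz1 hz2 hz3 hz4 hz5 rfl rfl hQ hT hT' hS1 hSz hx hθh hθl
    hθl' hδ hδl

end Vale.Agent.P126.Neg.Force
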