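import Vale.Agent.P126.Neg.Force.Numbers

/-! The separation of consecutive levels by few sets. -/

namespace Vale.Agent.P126.Neg.Force

open scoped Classical
open Finset

variable {Q P d : ℕ} {V : Type}

theorem family_card_block {b M r c : ℕ} (T : Fin Q → Fin Q → Prop) (δ' θ ρ1 ρ : ℝ)
    (x : Fin b → Pt Q P V) (Ex : Finset (Fin Q)) (hP : 2 ≤ P) (hb : b ≤ P)
    (hpool : ((pool δ' M x ∪ Ex).card : ℝ) + 1 ≤ (P : ℝ) ^ c) :
    ((famB T δ' M θ ρ1 ρ x r Ex ∪ {∅}).card : ℝ) ≤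
      (P : ℝ) ^ (((c * M + 1) * r + 1) * (M + 1) + 1) := by
  have hP1 : (1 : ℝ) ≤ P := by exact_mod_cast (by omega : 1 ≤ P)
  have hP2 : (2 : ℝ) ≤ P := by exact_mod_cast hP
  have h := (Nat.cast_le (α := ℝ)).2 (famB_card T δ' M θ ρ1 ρ x r Ex)
  push_cast at h
  have h1 : (((b : ℝ) * (((pool δ' M x ∪ Ex).card : ℝ) + 1) ^ M) ^ r) ≤
      (P : ℝ) ^ ((c * M + 1) * r) := by
    rw [pow_mul]
    refine pow_le_pow_left₀ (by positivity) ?_ _
    rw [pow_succ', pow_mul]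
    exact mul_le_mul (by exact_mod_cast hb) (pow_le_pow_left₀ (by positivity) hpool _)
      (by positivity) (by positivity)
  have h2 : ((famB T δ' M θ ρ1 ρ x r Ex).card : ℝ) ≤
      (P : ℝ) ^ (((c * M + 1) * r + 1) * (M + 1)) := by
    refine h.trans ?_
    rw [pow_mul _ _ (M + 1)]
    refine pow_le_pow_left₀ (by positivity) ?_ _
    rw [pow_succ]
    nlinarith [one_le_pow₀ (n := (c * M + 1) * r) hP1]
  refine ((Nat.cast_le (α := ℝ)).2 (card_union_le _ _)).trans ?_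
  simp only [card_singleton]
  push_cast
  rw [pow_succ]
  nlinarith [one_le_pow₀ (n := ((c * M + 1) * r + 1) * (M + 1)) hP1]

theorem pool_part (δ' : ℝ) (M : ℕ) (x : Fin d → Pt Q P V) (A : Finset (Fin d)) :
    pool δ' M (part x A) ⊆ pool δ' M x := by
  intro i hi
  simp only [pool, mem_union, mem_biUnion, mem_univ, true_and, part, id_eq] at hi ⊢
  rcases hi with ⟨k', F, h⟩ | ⟨j', k', F, h⟩
  · exact Or.inl ⟨_, F, h⟩
  · exact Or.inr ⟨_, _, F, h⟩

/-- One block, of a single class or of small multiplicities. -/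
theorem block_fact (hSample : SampleStmt) {M R l C E z N a K e e' : ℕ} {θ δ : ℕ → ℝ} {S : ℝ}
    (hdom : ∀ (Q P n b : ℕ) (V : Type) (T : Fin Q → Fin Q → Prop) (θ ω S ρ1 δh : ℝ)
      (f : Omega Q P → V) (x : Fin b → Pt Q P V) (H : Finset (Fin b))
      (μ : Fin b → (Fin n → Fin Q) → ℝ),
      0 < P → 0 < θ → 2 * n + 2 ≤ M → 1 ≤ ω → (P : ℝ) ≤ ω * θ → 1 ≤ S → 0 ≤ δh → 0 ≤ ρ1 →
      (∀ i j, i ≠ j → T i j ∨ T j i) →
      (∀ k, DegOK P S M (x k).L ∧ ∀ F ∈ (x k).L, F.card ≤ M) →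
      (∀ j ∈ H, Spread θ (μ j) ∧ ∑ a, μ j a = 1 ∧ ∀ a, μ j a ≠ 0 →
        Free (x j).L (img a) ∧ Near f (x j).phi δh (insert (x j).cls (img a))) →
      (1 / ((C : ℝ) * S * ω) ^ E - ρ1) * (H.card : ℝ) ^ 2 ≤
        2 * ∑ j ∈ H, ∑ k ∈ H, gMass T (delC P M δh) M θ ρ1 (x j) (x k) (μ j))
    (hcond : Cond C E M S ((z : ℝ) ^ e) (1 / (z : ℝ) ^ a) (1 / (z : ℝ) ^ (a + 1))
      (1 / (z : ℝ) ^ (a + 1)) (1 / (z : ℝ) ^ (a + 2)) (1 / (z : ℝ) ^ (2 * a + 4)) (1 / (K : ℝ))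
      (z ^ (2 * a + 4)))
    (hM : M = 2 ^ R) (hl : l + 1 ≤ R) (hP : 2 ≤ P) (hPN : P = z ^ N) (hPd : P = z * d)
    (hz : 2 ≤ z) (hK : 1 ≤ K) (hKz : 8 * K ^ 2 ≤ z) (hMz : 2 ^ M ≤ z) (hS1 : 1 ≤ S)
    {T : Fin Q → Fin Q → Prop} (hT : ∀ i j, T i j → ¬ T j i)
    (hT' : ∀ i j, i ≠ j → T i j ∨ T j i) {x : Fin d → Pt Q P V} (hx : ∀ k, PtOK T S M (x k))
    (hθh : (P : ℝ) / (z : ℝ) ^ e ≤ θ (l + 1)) (hθl : 0 < θ l)
    (hθl' : θ l ≤ (P : ℝ) / (z : ℝ) ^ e') (he' : 5 * a + 17 + e ≤ e')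
    (hδ : 0 < δ (l + 1)) (hδl : δ (l + 1) * (P : ℝ) ^ (6 * M) ≤ δ l)
    {Ex : Finset (Fin Q)} (hEd : Disjoint Ex (pool (delC P M (δ (l + 1))) M x))
    (hEc : M ≤ Ex.card) (f : Omega Q P → V)
    (t : Option {c : Fin Q // z ^ (2 * a + 9) < (univ.filter fun k => (x k).cls = c).card}) :
    ∃ U ∈ famB T (delC P M (δ (l + 1))) M (θ (l + 1)) (1 / (z : ℝ) ^ (a + 1))
        (1 / (z : ℝ) ^ (a + 1)) (part x (blockSet x (z ^ (2 * a + 9)) t)) (z ^ (2 * a + 4)) Ex ∪ {∅},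
      ((univ.filter fun i => Lev R θ δ (l + 1) f
          (x (partEmb (blockSet x (z ^ (2 * a + 9)) t) i)) ∧ i ∉ U).card : ℝ) +
        ((univ.filter fun i => i ∈ U ∧ ¬ Lev R θ δ l f
          (x (partEmb (blockSet x (z ^ (2 * a + 9)) t) i))).card : ℝ) ≤
          3 * (M + 1) * (1 / (K : ℝ)) * (blockSet x (z ^ (2 * a + 9)) t).card +
            if t = none then (d : ℝ) / K else 0 := by
  obtain ⟨hzR, hz0, hz1⟩ := cast_base hz
  have hP0 : (0 : ℝ) < P := by exact_mod_cast (by omega : 0 < P)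
  have hθh0 : 0 < θ (l + 1) := lt_of_lt_of_le (by positivity) hθh
  have hKR : (0 : ℝ) < K := by exact_mod_cast hK
  have hle5 : θ l ≤ 1 / (z : ℝ) ^ (2 * a + 4) * θ (l + 1) :=
    calc θ l ≤ (P : ℝ) / (z : ℝ) ^ e' := hθl'
      _ ≤ (P : ℝ) / (z : ℝ) ^ ((2 * a + 4) + e) :=
          div_le_div_of_nonneg_left hP0.le (by positivity) (pow_le_pow_right₀ hz1 (by omega))
      _ = 1 / (z : ℝ) ^ (2 * a + 4) * ((P : ℝ) / (z : ℝ) ^ e) := by rw [pow_add]; field_simp
      _ ≤ _ := mul_le_mul_of_nonneg_left hθh (by positivity)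
  set A := blockSet x (z ^ (2 * a + 9)) t with hA
  by_cases hsmall : t = none ∧ (A.card : ℝ) * K < d
  · refine ⟨∅, mem_union_right _ (mem_singleton_self _), ?_⟩
    simp only [notMem_empty, not_false_eq_true, and_true, false_and, filter_false, card_empty,
      Nat.cast_zero, add_zero, hsmall.1, if_true]
    have h1 : ((univ.filter fun i : Fin A.card =>
        Lev R θ δ (l + 1) f (x (partEmb A i))).card : ℝ) ≤ A.card := by
      exact_mod_cast (card_le_univ _).trans (by simp)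
    have h2 : (A.card : ℝ) ≤ (d : ℝ) / K := by
      rw [le_div_iff₀ hKR]; exact hsmall.2.le
    have h3 : 0 ≤ 3 * ((M : ℝ) + 1) * (1 / (K : ℝ)) * A.card := by positivity
    linarith
  have hmult : (∀ j k', (part x A j).cls = (part x A k').cls) ∨
      ((∀ cl, (univ.filter fun k' => (part x A k').cls = cl).card ≤ z ^ (2 * a + 9)) ∧
        ((z ^ (2 * a + 9) : ℕ) : ℝ) * 2 ^ M * θ l ≤ 1 / (z : ℝ) ^ (a + 1) / 8 *
          (1 / (z : ℝ) ^ (2 * a + 4) * (1 / (K : ℝ) * A.card))) := by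
    rcases t with - | ⟨c0, hc0⟩
    · right
      refine ⟨fun cl => ?_, ?_⟩
      · rw [show (univ.filter fun k' => (part x A k').cls = cl).card =
          (A.filter fun i => (x i).cls = cl).card by
            convert card_filter_part (A := A) (p := fun i => (x i).cls = cl) using 4
            simp [part, partEmb]]
        rcases (A.filter fun i => (x i).cls = cl).eq_empty_or_nonempty with h | ⟨i, hi⟩
        · simp [h]
        · simp only [hA, blockSet, mem_filter, mem_univ, true_and] at hi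
          rw [← hi.2]
          refine le_trans (card_le_card ?_) hi.1
          intro j hj
          simp only [mem_filter, mem_univ, true_and] at hj ⊢
          exact hj.2
      · simp only [true_and, not_lt] at hsmall
        exact mult_bound (d := (d : ℝ)) hz (by rw [hPd]; push_cast; ring) (Nat.cast_nonneg _) hK
          hKz hMz hθl.le hθl' (by omega) ((div_le_iff₀ hKR).2 hsmall)
    · left
      intro j k'
      have h1 := (A.equivFin.symm j).2
      have h2 := (A.equivFin.symm k').2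
      simp only [hA, blockSet, mem_filter, mem_univ, true_and] at h1 h2
      exact h1.trans h2.symm
  obtain ⟨U, hU, hle⟩ := block_sep hSample hcond hM hl hP hT hθh0 hθl hle5 hδ.le hδl
    (x := part x A) (fun k' => hx _) hmult (fun n hn f' H μ hH => le_trans
      (mul_le_mul_of_nonneg_right (by linarith [hcond.pairs]) (by positivity))
      (hdom Q P n A.card V T (θ (l + 1)) ((z : ℝ) ^ e) S (1 / (z : ℝ) ^ (a + 1)) (δ (l + 1))
        f' (part x A) H μ (by omega) hθh0 hn (one_le_pow₀ hz1)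
        (by
          calc (P : ℝ) = (z : ℝ) ^ e * ((P : ℝ) / (z : ℝ) ^ e) := by field_simp
            _ ≤ _ := mul_le_mul_of_nonneg_left hθh (by positivity))
        hS1 hδ.le hcond.r1_pos.le hT'
        (fun k' => ⟨(hx _).1, fun F hF => ((hx _).2 F hF).2.1⟩) hH))
    (Ex := Ex) (Finset.disjoint_left.2 fun i hi hi' =>
      Finset.disjoint_left.1 hEd hi (pool_part _ M x A hi')) hEc f
  refine ⟨U, mem_union_left _ hU, hle.trans (le_add_of_nonneg_right ?_)⟩
  split_ifs <;> positivity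

theorem count_exp {x : Fin d → Pt Q P V} {z N a Ec : ℕ} (hz : 2 ≤ z) (hNz : N ≤ z)
    (hPN : P = z ^ N) (hd : d = z ^ (N - 1)) (hN : 2 * a + 10 ≤ N)
    (hEc : Ec ≤ z * z ^ (2 * a + 4))
    (fam : ∀ t, Finset (Finset (Fin (blockSet x (z ^ (2 * a + 9)) t).card)))
    (hfam : ∀ t, ((fam t).card : ℝ) ≤ (P : ℝ) ^ Ec) :
    (((Fintype.piFinset fam).image fun g => univ.biUnion fun t =>
      (g t).map (partEmb (blockSet x (z ^ (2 * a + 9)) t))).card : ℝ) ≤
        Real.exp ((d : ℝ) / z) := by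
  refine ((Nat.cast_le (α := ℝ)).2 card_image_le).trans ?_
  rw [Fintype.card_piFinset]
  push_cast
  refine (Finset.prod_le_prod (fun t _ => Nat.cast_nonneg _) fun t _ => hfam t).trans ?_
  rw [prod_const, card_univ, show (P : ℝ) = (z : ℝ) ^ N by rw [hPN, Nat.cast_pow], ← pow_mul,
    ← pow_mul]
  refine (cast_pow_le_exp z _).trans (Real.exp_le_exp.2 ?_)
  rw [le_div_iff₀ (cast_base hz).2.1, ← mul_assoc N]
  exact_mod_cast count_bound hz hNz hd hN Fintype.card_pos (blockSet_count x _) hEc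

end Vale.Agent.P126.Neg.Force
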