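import Vale.Agent.P126.Neg.Force.Basic

/-! Pushing measures forward to tuples, and the pair measure of one forcing point. -/

namespace Vale.Agent.P126.Neg.Force

open scoped Classical
open Finset

variable {Q P n : ℕ} {V : Type}

/-- A measure on tuples indexed by any finite type gives a level. -/
theorem lev_of_measure {R : ℕ} {θ δ : ℕ → ℝ} {l : ℕ} {f : Omega Q P → V} {x : Pt Q P V}
    {ι σ : Type} [Fintype ι] [Fintype σ] (hι : Fintype.card ι ≤ depth R l) (g : σ → ι → Fin Q)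
    (m : σ → ℝ) (hm : ∀ s, 0 ≤ m s) (h1 : ∑ s, m s = 1)
    (hsp : ∀ (J : Finset ι) (v : ι → Fin Q),
      ∑ s ∈ univ.filter (fun s => ∀ p ∈ J, g s p = v p), m s ≤ (1 / θ l) ^ J.card)
    (hsupp : ∀ s, m s ≠ 0 → Free x.L (univ.image (g s)) ∧
      Near f x.phi (δ l) (insert x.cls (univ.image (g s)))) :
    Lev R θ δ l f x := by
  set e := Fintype.equivFin ι
  refine ⟨Fintype.card ι, hι, fun a => ∑ s ∈ univ.filter (fun s => g s ∘ e.symm = a), m s,
    ⟨fun a => sum_nonneg fun s _ => hm s, fun J v => ?_⟩, ?_, ?_⟩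
  · have h := sum_fiberwise_eq_sum_filter (univ : Finset σ)
      (univ.filter fun a : Fin (Fintype.card ι) → Fin Q => ∀ p ∈ J, a p = v p)
      (fun s => g s ∘ e.symm) m
    rw [h]
    refine le_trans (le_of_eq (sum_congr ?_ fun _ _ => rfl))
      ((hsp (J.image e.symm) (v ∘ e)).trans (le_of_eq ?_))
    · ext s; simp
    · rw [card_image_of_injective _ e.symm.injective]
  · rw [sum_fiberwise (univ : Finset σ) (fun s => g s ∘ e.symm) m, h1]
  · intro a ha
    obtain ⟨s, hs, hs0⟩ := exists_ne_zero_of_sum_ne_zero ha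
    simp only [mem_filter, mem_univ, true_and] at hs
    have : img a = univ.image (g s) := by
      rw [← hs, img, ← image_image, image_univ_equiv]
    rw [this]
    exact hsupp s hs0

/-- The mass of a pair of tuples with common positions `I`. -/
noncomputable def pairMass (θ : ℝ) (I : Finset (Fin n)) (μ : (Fin n → Fin Q) → ℝ)
    (ν : (Fin n → Fin Q) → (Fin n → Fin Q) → ℝ)
    (G : (Fin n → Fin Q) → (Fin n → Fin Q) → Prop)
    (s : (Fin n → Fin Q) × (Fin n → Fin Q)) : ℝ :=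
  if G s.1 s.2 then μ s.1 * (θ ^ I.card * ν s.1 s.2) else 0

/-- The tuple of a pair: the first tuple and the free positions of the second one. -/
def pairTup (I : Finset (Fin n)) (s : (Fin n → Fin Q) × (Fin n → Fin Q)) :
    Fin n ⊕ {p : Fin n // p ∉ I} → Fin Q :=
  Sum.elim s.1 fun p => s.2 p

theorem image_pairTup (I : Finset (Fin n)) (s : (Fin n → Fin Q) × (Fin n → Fin Q))
    (h : ∀ p ∈ I, s.2 p = s.1 p) : univ.image (pairTup I s) = img s.1 ∪ img s.2 := by
  ext i
  simp only [pairTup, img, mem_image, mem_univ, true_and, mem_union]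
  constructor
  · rintro ⟨p | p, rfl⟩
    · exact Or.inl ⟨p, rfl⟩
    · exact Or.inr ⟨p, rfl⟩
  · rintro (⟨p, rfl⟩ | ⟨p, rfl⟩)
    · exact ⟨Sum.inl p, rfl⟩
    · by_cases hp : p ∈ I
      · exact ⟨Sum.inl p, (h p hp).symm⟩
      · exact ⟨Sum.inr ⟨p, hp⟩, rfl⟩

theorem pairMass_nonneg {θ : ℝ} (hθ : 0 ≤ θ) {I : Finset (Fin n)} {μ : (Fin n → Fin Q) → ℝ}
    {ν : (Fin n → Fin Q) → (Fin n → Fin Q) → ℝ}
    {G : (Fin n → Fin Q) → (Fin n → Fin Q) → Prop} (hμ : Spread θ μ) (hν : ∀ a, Spread θ (ν a))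
    (s : (Fin n → Fin Q) × (Fin n → Fin Q)) : 0 ≤ pairMass θ I μ ν G s := by
  unfold pairMass
  split_ifs
  · exact mul_nonneg (hμ.1 _) (mul_nonneg (pow_nonneg hθ _) ((hν _).1 _))
  · exact le_rfl

theorem pairMass_proj {θ : ℝ} (hθ : 0 < θ) {I : Finset (Fin n)} {μ : (Fin n → Fin Q) → ℝ}
    {ν : (Fin n → Fin Q) → (Fin n → Fin Q) → ℝ}
    {G : (Fin n → Fin Q) → (Fin n → Fin Q) → Prop} (hμ : Spread θ μ) (hν : ∀ a, Spread θ (ν a))
    (hG : ∀ a c, G a c → ∀ p ∈ I, c p = a p)
    (J : Finset (Fin n ⊕ {p : Fin n // p ∉ I})) (v : Fin n ⊕ {p : Fin n // p ∉ I} → Fin Q) :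
    ∑ s ∈ univ.filter (fun s => ∀ p ∈ J, pairTup I s p = v p), pairMass θ I μ ν G s ≤
      (1 / θ) ^ J.card := by
  set vA : Fin n → Fin Q := fun p => v (Sum.inl p)
  set C : Finset (Fin n) := J.toRight.map ⟨Subtype.val, Subtype.val_injective⟩ with hC
  set vB : (Fin n → Fin Q) → Fin n → Fin Q :=
    fun a p => if hp : p ∈ I then a p else v (Sum.inr ⟨p, hp⟩)
  have hsplit : (univ.filter fun s : (Fin n → Fin Q) × (Fin n → Fin Q) =>
      ∀ p ∈ J, pairTup I s p = v p) ⊆
        (univ.filter fun a : Fin n → Fin Q => ∀ p ∈ J.toLeft, a p = vA p) ×ˢ univ := by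
    intro s hs
    simp only [mem_filter, mem_univ, true_and, mem_product, and_true] at hs ⊢
    intro p hp
    exact hs (Sum.inl p) (by simpa using hp)
  have hinner : ∀ a : Fin n → Fin Q, ∑ c ∈ univ.filter (fun c => ∀ p ∈ C, c p = vB a p),
      pairMass θ I μ ν G (a, c) ≤ μ a * (1 / θ) ^ J.toRight.card := by
    intro a
    have hIC : Disjoint I C := by
      rw [Finset.disjoint_left]
      intro p hp hp'
      simp only [hC, mem_map, Function.Embedding.coeFn_mk] at hp'
      obtain ⟨q, -, rfl⟩ := hp'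
      exact q.2 hp
    have h1 : ∑ c ∈ univ.filter (fun c => ∀ p ∈ C, c p = vB a p), pairMass θ I μ ν G (a, c) ≤
        ∑ c ∈ univ.filter (fun c : Fin n → Fin Q => ∀ p ∈ I ∪ C, c p = vB a p),
          μ a * (θ ^ I.card * ν a c) := by
      simp only [pairMass]
      rw [← sum_filter]
      refine sum_le_sum_of_subset_of_nonneg (fun c hc => ?_)
        (fun c _ _ => mul_nonneg (hμ.1 _) (mul_nonneg (pow_nonneg hθ.le _) ((hν _).1 _)))
      simp only [mem_filter, mem_univ, true_and, mem_union] at hc ⊢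
      rintro p (hp | hp)
      · simp [vB, hp, hG a c hc.2 p hp]
      · exact hc.1 p hp
    refine h1.trans ?_
    rw [← mul_sum, ← mul_sum]
    refine mul_le_mul_of_nonneg_left ?_ (hμ.1 a)
    refine (mul_le_mul_of_nonneg_left ((hν a).2 (I ∪ C) (vB a))
      (pow_nonneg hθ.le _)).trans (le_of_eq ?_)
    rw [card_union_of_disjoint hIC, hC, card_map, pow_add, ← mul_assoc, ← mul_pow,
      mul_one_div, div_self hθ.ne', one_pow, one_mul]
  calc ∑ s ∈ univ.filter (fun s => ∀ p ∈ J, pairTup I s p = v p), pairMass θ I μ ν G s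
      ≤ ∑ a ∈ univ.filter (fun a : Fin n → Fin Q => ∀ p ∈ J.toLeft, a p = vA p),
          ∑ c ∈ univ.filter (fun c => ∀ p ∈ C, c p = vB a p), pairMass θ I μ ν G (a, c) := by
        rw [← sum_finset_product (univ.filter fun s : (Fin n → Fin Q) × (Fin n → Fin Q) =>
          (∀ p ∈ J.toLeft, s.1 p = vA p) ∧ ∀ p ∈ C, s.2 p = vB s.1 p) _ _ (by intro s; simp)]
        refine sum_le_sum_of_subset_of_nonneg (fun s hs => ?_)
          (fun s _ _ => pairMass_nonneg hθ.le hμ hν s)
        have h0 := hsplit hs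
        simp only [mem_filter, mem_univ, true_and, mem_product, and_true] at hs h0 ⊢
        refine ⟨h0, fun p hp => ?_⟩
        simp only [hC, mem_map, Function.Embedding.coeFn_mk] at hp
        obtain ⟨q, hq, rfl⟩ := hp
        simpa [vB, q.2, pairTup] using hs (Sum.inr q) (mem_toRight.1 hq)
    _ ≤ ∑ a ∈ univ.filter (fun a : Fin n → Fin Q => ∀ p ∈ J.toLeft, a p = vA p),
          μ a * (1 / θ) ^ J.toRight.card := sum_le_sum fun a _ => hinner a
    _ ≤ (1 / θ) ^ J.card := by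
        rw [← sum_mul, ← card_toLeft_add_card_toRight (u := J), pow_add]
        exact mul_le_mul_of_nonneg_right (hμ.2 _ _) (by positivity)

end Vale.Agent.P126.Neg.Force
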