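import Vale.Agent.P126.Neg.Force.Family

/-! The numerical side conditions, in powers of the base `z`. -/

namespace Vale.Agent.P126.Neg.Force

open scoped Classical
open Finset

theorem cast_base {z : ℕ} (hz : 2 ≤ z) : (2 : ℝ) ≤ z ∧ (0 : ℝ) < z ∧ (1 : ℝ) ≤ z := by
  have h : (2 : ℝ) ≤ z := by exact_mod_cast hz
  exact ⟨h, by linarith, by linarith⟩

theorem cond_of_z {C E M e a K z : ℕ} {S : ℝ} (hC : 1 ≤ C) (hS1 : 1 ≤ S) (hSz : S ≤ z)
    (ha : (e + 2) * E ≤ a) (hK : 1 ≤ K) (hKz : 8 * K ^ 2 ≤ z) (hMz : 2 ^ M ≤ z) (hCz : C ≤ z) :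
    Cond C E M S ((z : ℝ) ^ e) (1 / (z : ℝ) ^ a) (1 / (z : ℝ) ^ (a + 1)) (1 / (z : ℝ) ^ (a + 1))
      (1 / (z : ℝ) ^ (a + 2)) (1 / (z : ℝ) ^ (2 * a + 4)) (1 / (K : ℝ)) (z ^ (2 * a + 4)) := by
  have hK2 : K ≤ K ^ 2 := Nat.le_self_pow two_ne_zero K
  obtain ⟨hzR, hz0, hz1⟩ := cast_base (z := z) (by omega)
  have hKR : (1 : ℝ) ≤ K := by exact_mod_cast hK
  have hKz' : (8 : ℝ) * (K : ℝ) ^ 2 ≤ z := by exact_mod_cast hKz
  have h4K : (4 : ℝ) * K ≤ z := by nlinarith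
  have h32 : (32 : ℝ) * K ≤ (z : ℝ) ^ 2 := by nlinarith
  have h8z : (8 : ℝ) ≤ z := by nlinarith
  have h2Mz : (2 : ℝ) ^ M ≤ z := by exact_mod_cast hMz
  have hCz' : (C : ℝ) ≤ z := by exact_mod_cast hCz
  have hC0 : (0 : ℝ) < C := by exact_mod_cast hC
  refine ⟨?_, by positivity, ?_, by positivity, ?_, by positivity, ?_, by positivity, ?_, ?_,
    by positivity, Nat.pow_pos (by omega), ?_⟩
  · refine div_le_div_of_nonneg_left zero_le_one (by positivity) ?_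
    calc ((C : ℝ) * S * (z : ℝ) ^ e) ^ E ≤ ((z : ℝ) ^ (e + 2)) ^ E := by
          refine pow_le_pow_left₀ (by positivity) ?_ _
          calc (C : ℝ) * S * (z : ℝ) ^ e ≤ (z : ℝ) * z * (z : ℝ) ^ e := by gcongr
            _ = _ := by ring
      _ ≤ (z : ℝ) ^ a := by
          rw [← pow_mul]; exact pow_le_pow_right₀ hz1 ha
  · rw [pow_succ, div_div]
    exact div_le_div_of_nonneg_left zero_le_one (by positivity) (by gcongr)
  · rw [pow_succ]
    calc 1 / ((z : ℝ) ^ a * z) ≤ 1 / ((z : ℝ) ^ a * (4 * K)) := by gcongr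
      _ = _ := by field_simp
  · rw [show a + 2 = a + 1 + 1 by omega, pow_succ _ (a + 1), div_div]
    exact div_le_div_of_nonneg_left zero_le_one (by positivity) (by gcongr)
  · rw [div_mul_div_comm, ← pow_add, mul_one, div_mul_eq_mul_div, one_mul,
      div_le_div_iff₀ (by positivity) (by positivity), one_mul,
      show 2 * a + 4 = a + 1 + (a + 2) + 1 by omega, pow_succ' _ (a + 1 + (a + 2))]
    exact mul_le_mul_of_nonneg_right h2Mz (by positivity)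
  · exact (div_le_one (by positivity)).2 (one_le_pow₀ hz1)
  · push_cast
    rw [div_pow, one_pow, ← pow_mul, mul_one_div,
      show 2 * a + 4 = (a + 1) * 2 + 2 by omega, pow_add, mul_div_cancel_left₀ _ (by positivity),
      div_le_div_iff₀ (by positivity) (by linarith : (0 : ℝ) < K), one_mul]
    exact h32

/-- The exponent of the count of sets in all blocks. -/
theorem count_bound {z N a β d Ec : ℕ} (hz : 2 ≤ z) (hNz : N ≤ z) (hd : d = z ^ (N - 1))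
    (hN : 2 * a + 10 ≤ N) (hβ0 : 0 < β) (hβ : (β - 1) * z ^ (2 * a + 9) ≤ d)
    (hEc : Ec ≤ z * z ^ (2 * a + 4)) : N * Ec * β * z * z ≤ d := by
  have h1 : N * Ec * β * z * z ≤ β * z ^ (2 * a + 8) := by
    calc N * Ec * β * z * z ≤ z * (z * z ^ (2 * a + 4)) * β * z * z := by gcongr
      _ = _ := by rw [show 2 * a + 8 = 2 * a + 4 + 4 by omega, pow_add _ (2 * a + 4)]; ring
  refine h1.trans ?_
  have h3 : (β - 1) * z ^ (2 * a + 8) * z ≤ d := by rw [mul_assoc, ← pow_succ]; exact hβ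
  have h4 : z ^ (2 * a + 8) * z ≤ d := by
    rw [← pow_succ, hd]; exact Nat.pow_le_pow_right (by omega) (by omega)
  have h2 : 2 * (β * z ^ (2 * a + 8)) ≤ 2 * d := by
    calc 2 * (β * z ^ (2 * a + 8)) ≤ z * (β * z ^ (2 * a + 8)) := Nat.mul_le_mul_right _ hz
      _ = (β - 1) * z ^ (2 * a + 8) * z + z ^ (2 * a + 8) * z := by
          obtain ⟨β', rfl⟩ : ∃ β', β = β' + 1 := ⟨β - 1, by omega⟩
          rw [Nat.add_sub_cancel]; ring
      _ ≤ 2 * d := by omega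
  omega

theorem mult_bound {z a M K e' : ℕ} {P d b θl : ℝ} (hz : 2 ≤ z) (hPd : P = (z : ℝ) * d)
    (hd : 0 ≤ d) (hK : 1 ≤ K) (hKz : 8 * K ^ 2 ≤ z) (hMz : 2 ^ M ≤ z) (hθl : 0 ≤ θl)
    (hθ : θl ≤ P / (z : ℝ) ^ e') (he' : 5 * a + 17 ≤ e') (hb : d / K ≤ b) :
    ((z ^ (2 * a + 9) : ℕ) : ℝ) * 2 ^ M * θl ≤
      1 / (z : ℝ) ^ (a + 1) / 8 * (1 / (z : ℝ) ^ (2 * a + 4) * (1 / (K : ℝ) * b)) := by
  obtain ⟨hzR, hz0, hz1⟩ := cast_base hz
  have hKR : (0 : ℝ) < K := by exact_mod_cast hK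
  have hKz' : (8 : ℝ) * (K : ℝ) ^ 2 ≤ z := by exact_mod_cast hKz
  have h2Mz : (2 : ℝ) ^ M ≤ z := by exact_mod_cast hMz
  have hP : 0 ≤ P := by rw [hPd]; positivity
  refine le_trans ?_ (mul_le_mul_of_nonneg_left (mul_le_mul_of_nonneg_left
    (mul_le_mul_of_nonneg_left hb (by positivity)) (by positivity)) (by positivity))
  push_cast
  calc (z : ℝ) ^ (2 * a + 9) * 2 ^ M * θl
      ≤ (z : ℝ) ^ (2 * a + 9) * z * (P / (z : ℝ) ^ (5 * a + 17)) := by
        refine mul_le_mul (mul_le_mul_of_nonneg_left h2Mz (by positivity))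
          (hθ.trans (div_le_div_of_nonneg_left hP (by positivity) (pow_le_pow_right₀ hz1 he')))
          hθl (by positivity)
    _ = d / ((z : ℝ) ^ (a + 1) * (z : ℝ) ^ (2 * a + 4) * z) := by
        rw [hPd, show 5 * a + 17 = (2 * a + 9) + ((a + 1) + (2 * a + 4)) + 3 by omega]
        simp only [pow_add]
        field_simp
    _ ≤ d / ((z : ℝ) ^ (a + 1) * (z : ℝ) ^ (2 * a + 4) * (8 * (K : ℝ) ^ 2)) := by gcongr
    _ = _ := by field_simp

end Vale.Agent.P126.Neg.Force
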